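import Crest.Agent.R264.P7.Compl0

/-!
# Row 264, P7: completeness of bounded fields
-/

set_option autoImplicit false
open Set Filter Topology Metric

noncomputable section
namespace Crest.Agent.R264.P7

theorem Compl_congr {N : ℕ} {U : Set (CN N)} {f : CN N → CN N} {c d : ℝ → CN N} {t : ℝ}
    (hc : c t ∈ U ∧ HasDerivAt c (f (c t)) t) (h : ∀ᶠ s in 𝓝 t, d s = c s) :
    d t ∈ U ∧ HasDerivAt d (f (d t)) t := by
  rw [h.self_of_nhds]
  exact ⟨hc.1, hc.2.congr_of_eventuallyEq h⟩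

theorem Compl_rev {N : ℕ} {U : Set (CN N)} {v : CN N} {c : ℝ → CN N} {t : ℝ}
    (hc : c (-t) ∈ U ∧ HasDerivAt c v (-t)) :
    c (-t) ∈ U ∧ HasDerivAt (fun s => c (-s)) (-v) t := by
  refine ⟨hc.1, ?_⟩
  have := hc.2.scomp t (hasDerivAt_neg t)
  simpa [Function.comp_def] using this

theorem Compl_loc (M : TM) (X : M.VF) {c d : ℝ → CN M.N} {t : ℝ}
    (hc : ∀ᶠ s in 𝓝 t, c s ∈ M.U ∧ HasDerivAt c ((X : CN M.N → CN M.N) (c s)) s)
    (hd : ∀ᶠ s in 𝓝 t, d s ∈ M.U ∧ HasDerivAt d ((X : CN M.N → CN M.N) (d s)) s)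
    (h : c t = d t) : ∀ᶠ s in 𝓝 t, c s = d s := by
  have hc1 := hc.self_of_nhds.2.continuousAt.tendsto
  have hd1 := hd.self_of_nhds.2.continuousAt.tendsto
  rw [← h] at hd1
  have hU := hc.self_of_nhds.1
  have h1 := curve_eq_of_tendsto_U M X hU (hc.filter_mono nhdsWithin_le_nhds)
    (hd.filter_mono nhdsWithin_le_nhds) (hc1.mono_left nhdsWithin_le_nhds)
    (hd1.mono_left nhdsWithin_le_nhds)
  have hn : Tendsto (fun s : ℝ => -s) (𝓝[<] (-t)) (𝓝 t) := by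
    have : Tendsto (fun s : ℝ => -s) (𝓝 (-t)) (𝓝 (- -t)) := continuous_neg.tendsto _
    rw [neg_neg] at this
    exact this.mono_left nhdsWithin_le_nhds
  have h2 := curve_eq_of_tendsto_U M (-X) (c := fun s => c (-s)) (d := fun s => d (-s))
    (b := -t) hU (by filter_upwards [hn.eventually hc] with s hs using Compl_rev hs)
    (by filter_upwards [hn.eventually hd] with s hs using Compl_rev hs) (hc1.comp hn) (hd1.comp hn)
  have hn' : Tendsto (fun s : ℝ => -s) (𝓝[>] t) (𝓝[<] (-t)) :=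
    tendsto_nhdsWithin_iff.2 ⟨(continuous_neg.tendsto _).mono_left nhdsWithin_le_nhds, by
      filter_upwards [self_mem_nhdsWithin] with s hs using neg_lt_neg (mem_Ioi.1 hs)⟩
  have h3 := hn'.eventually h2
  simp only [neg_neg] at h3
  rw [eventually_nhdsWithin_iff] at h1 h3
  filter_upwards [h1, h3] with s h1 h3
  rcases lt_trichotomy s t with e | e | e
  · exact h1 e
  · rw [e, h]
  · exact h3 e

theorem Compl_uniq (M : TM) (X : M.VF) {c d : ℝ → CN M.N} {a b t0 : ℝ}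
    (hc : ∀ s ∈ Ioo a b, c s ∈ M.U ∧ HasDerivAt c ((X : CN M.N → CN M.N) (c s)) s)
    (hd : ∀ s ∈ Ioo a b, d s ∈ M.U ∧ HasDerivAt d ((X : CN M.N → CN M.N) (d s)) s)
    (ht0 : t0 ∈ Ioo a b) (h : c t0 = d t0) {t : ℝ} (ht : t ∈ Ioo a b) : c t = d t := by
  have loc : ∀ t ∈ Ioo a b, c t = d t → ∀ᶠ s in 𝓝 t, c s = d s := fun t ht h =>
    Compl_loc M X (by filter_upwards [Ioo_mem_nhds ht.1 ht.2] with s hs using hc s hs)
      (by filter_upwards [Ioo_mem_nhds ht.1 ht.2] with s hs using hd s hs) h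
  have := isPreconnected_Ioo.subset_of_closure_inter_subset
    (u := {t | ∀ᶠ s in 𝓝 t, c s = d s}) isOpen_setOfPred_eventually_nhds
    ⟨t0, ht0, loc t0 ht0 h⟩ (fun s hs => loc s hs.2 (by
      refine tendsto_nhds_unique_of_frequently_eq (hc s hs.2).2.continuousAt.tendsto
        (hd s hs.2).2.continuousAt.tendsto ?_
      exact (mem_closure_iff_frequently.1 hs.1).mono fun u hu =>
        Filter.Eventually.self_of_nhds (p := fun s => c s = d s) hu))
  exact Filter.Eventually.self_of_nhds (p := fun s => c s = d s) (this ht)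

/-- Forward completeness.  Hint: let `T` be the set of `b > 0` such that there is a curve on
`Ioo (-ε) b` through `x` at `0` (`ε` from `exists_local_curve`); two such curves agree on the common
interval (clopen argument with `curve_eq_of_tendsto_U` for `X` and `-X`); glue; if `T` is bounded
with supremum `b`, the glued curve is Lipschitz, has a limit `p` at `b` (Cauchy), `p ∈ U` by `h`, and
the local curve through `p` at time `b` prolongs it. -/
theorem exists_forward (M : TM) (X : M.VF) {C : ℝ}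
    (hb : ∀ x ∈ M.U, ‖(X : CN M.N → CN M.N) x‖ ≤ C)
    (h : ∀ (c : ℝ → CN M.N) (a b : ℝ), a < b →
      (∀ t ∈ Ioo a b, c t ∈ M.U ∧ HasDerivAt c ((X : CN M.N → CN M.N) (c t)) t) →
      ∀ p, Tendsto c (𝓝[<] b) (𝓝 p) → p ∈ M.U) {x : CN M.N} (hx : x ∈ M.U) :
    ∃ ε > 0, ∃ c : ℝ → CN M.N, c 0 = x ∧ ∀ t, -ε < t →
      c t ∈ M.U ∧ HasDerivAt c ((X : CN M.N → CN M.N) (c t)) t := by
  classical
  obtain ⟨ε, hε, c0, hc0, hc0'⟩ := exists_local_curve M X hx 0
  rw [zero_sub, zero_add] at hc0'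
  set T : Set ℝ := {b | 0 < b ∧ ∃ c : ℝ → CN M.N, c 0 = x ∧ ∀ t ∈ Ioo (-ε) b,
    c t ∈ M.U ∧ HasDerivAt c ((X : CN M.N → CN M.N) (c t)) t} with hT
  have hεT : ε ∈ T := ⟨hε, c0, hc0, hc0'⟩
  have hch : ∀ b : T, ∃ c : ℝ → CN M.N, c 0 = x ∧ ∀ t ∈ Ioo (-ε) (b : ℝ),
      c t ∈ M.U ∧ HasDerivAt c ((X : CN M.N → CN M.N) (c t)) t := fun b => b.2.2
  choose γ hγ0 hγ using hch
  set g : ℝ → CN M.N := fun t => if h : ∃ b : T, t < b then γ h.choose t else 0 with hg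
  have hgγ : ∀ b : T, ∀ t ∈ Ioo (-ε) (b : ℝ), g t = γ b t := fun b t ht => by
    have h1 : ∃ b : T, t < b := ⟨b, ht.2⟩
    simp only [hg, dif_pos h1]
    refine Compl_uniq M X (a := -ε) (b := min (h1.choose : ℝ) b) (t0 := 0)
      (fun s hs => hγ _ s ⟨hs.1, hs.2.trans_le (min_le_left _ _)⟩)
      (fun s hs => hγ _ s ⟨hs.1, hs.2.trans_le (min_le_right _ _)⟩)
      ⟨by linarith, lt_min h1.choose.2.1 b.2.1⟩ (by rw [hγ0, hγ0])
      ⟨ht.1, lt_min h1.choose_spec ht.2⟩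
  have hgc : ∀ b ∈ T, ∀ t ∈ Ioo (-ε) b,
      g t ∈ M.U ∧ HasDerivAt g ((X : CN M.N → CN M.N) (g t)) t := fun b hb t ht =>
    Compl_congr (hγ ⟨b, hb⟩ t ht) (by
      filter_upwards [Ioo_mem_nhds ht.1 ht.2] with s hs using hgγ ⟨b, hb⟩ s hs)
  have hg0 : g 0 = x := by rw [hgγ ⟨ε, hεT⟩ 0 ⟨by linarith, hε⟩, hγ0]
  by_cases hbd : BddAbove T
  swap
  · refine ⟨ε, hε, g, hg0, fun t ht => ?_⟩
    obtain ⟨b, hb, htb⟩ := not_bddAbove_iff.1 hbd t
    exact hgc b hb t ⟨ht, htb⟩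
  exfalso
  set s := sSup T with hs
  have hs0 : 0 < s := hε.trans_le (le_csSup hbd hεT)
  have hεs : -ε < s := by linarith
  have hgs : ∀ t ∈ Ioo (-ε) s, g t ∈ M.U ∧ HasDerivAt g ((X : CN M.N → CN M.N) (g t)) t :=
    fun t ht => by
      obtain ⟨b, hb, htb⟩ := exists_lt_of_lt_csSup ⟨ε, hεT⟩ ht.2
      exact hgc b hb t ⟨ht.1, htb⟩
  have hC : 0 ≤ C := (norm_nonneg _).trans (hb x hx)
  have hlip : LipschitzOnWith ⟨C, hC⟩ g (Ioo (-ε) s) :=
    (convex_Ioo _ _).lipschitzOnWith_of_nnnorm_hasDerivWithin_le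
      (fun t ht => (hgs t ht).2.hasDerivWithinAt) fun t ht => hb _ (hgs t ht).1
  have hIoo : Ioo (-ε) s ∈ 𝓝[<] s := Ioo_mem_nhdsLT hεs
  obtain ⟨p, hp⟩ : ∃ p, Tendsto g (𝓝[<] s) (𝓝 p) :=
    cauchy_map_iff_exists_tendsto.1 ((cauchy_nhds.mono nhdsWithin_le_nhds).map_of_le
      hlip.uniformContinuousOn (le_principal_iff.2 hIoo))
  have hpU : p ∈ M.U := h g (-ε) s hεs hgs p hp
  obtain ⟨δ, hδ, d, hd0, hd⟩ := exists_local_curve M X hpU s
  have hsd : s ∈ Ioo (s - δ) (s + δ) := ⟨by linarith, by linarith⟩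
  have hgd : ∀ᶠ t in 𝓝[<] s, g t = d t :=
    curve_eq_of_tendsto_U M X hpU (by filter_upwards [hIoo] with t ht using hgs t ht)
      (by filter_upwards [mem_nhdsWithin_of_mem_nhds (Ioo_mem_nhds hsd.1 hsd.2)] with t ht
        using hd t ht) hp
      (hd0 ▸ (hd s hsd).2.continuousAt.tendsto.mono_left nhdsWithin_le_nhds)
  have hT' : s + δ ∈ T := by
    obtain ⟨k, hk⟩ : ∃ k : ℝ → CN M.N, ∀ t, k t = if t < s then g t else d t := ⟨_, fun _ => rfl⟩
    refine ⟨by linarith, k, by rw [hk, if_pos hs0, hg0], fun t ht => ?_⟩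
    rcases lt_trichotomy t s with h1 | h1 | h1
    · refine Compl_congr (hgs t ⟨ht.1, h1⟩) ?_
      filter_upwards [Iio_mem_nhds h1] with u hu
      rw [hk, if_pos (mem_Iio.1 hu)]
    · rw [h1]
      refine Compl_congr (hd _ hsd) ?_
      rw [eventually_nhdsWithin_iff] at hgd
      filter_upwards [hgd] with u hu
      rw [hk]
      split_ifs with h2
      · exact hu h2
      · rfl
    · refine Compl_congr (hd t ⟨by linarith, ht.2⟩) ?_
      filter_upwards [Ioi_mem_nhds h1] with u hu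
      rw [hk, if_neg (not_lt.2 (le_of_lt (mem_Ioi.1 hu)))]
  linarith [le_csSup hbd hT']

/-- Hint: `exists_forward` for `X` and `-X`, reverse time, glue at `0` (the two curves agree near
`0`), `TM.mem_g_of_complete`. -/
theorem mem_g_of_limit (M : TM) (X : M.VF) {C : ℝ}
    (hb : ∀ x ∈ M.U, ‖(X : CN M.N → CN M.N) x‖ ≤ C)
    (h : ∀ σ : ℂ, σ = 1 ∨ σ = -1 → ∀ (c : ℝ → CN M.N) (a b : ℝ), a < b →
      (∀ t ∈ Ioo a b, c t ∈ M.U ∧ HasDerivAt c (σ • (X : CN M.N → CN M.N) (c t)) t) →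
      ∀ p, Tendsto c (𝓝[<] b) (𝓝 p) → p ∈ M.U) : X ∈ M.g := by
  refine M.mem_g_of_complete X fun x hx => ?_
  obtain ⟨ε, hε, c, hc0, hc⟩ := exists_forward M X hb (fun c a b hab hc =>
    h 1 (Or.inl rfl) c a b hab fun t ht => by rw [one_smul]; exact hc t ht) hx
  obtain ⟨δ, hδ, d, hd0, hd⟩ := exists_forward M (-X) (C := C) (fun y hy => by
    simpa using hb y hy) (fun c a b hab hc =>
    h (-1) (Or.inr rfl) c a b hab fun t ht => by
      rw [neg_one_smul]; exact hc t ht) hx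
  have hd' : ∀ t, t < δ → d (-t) ∈ M.U ∧
      HasDerivAt (fun s => d (-s)) ((X : CN M.N → CN M.N) (d (-t))) t := fun t ht => by
    have := Compl_rev (t := t) (hd (-t) (by linarith))
    simpa using this
  have he : EqOn c (fun s => d (-s)) (Ioo (-ε) δ) := fun t ht =>
    Compl_uniq M X (t0 := 0) (fun s hs => hc s hs.1) (fun s hs => hd' s hs.2)
      ⟨by linarith, hδ⟩ (by simp [hc0, hd0]) ht
  obtain ⟨k, hk⟩ : ∃ k : ℝ → CN M.N, ∀ t, k t = if 0 ≤ t then c t else d (-t) := ⟨_, fun _ => rfl⟩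
  refine ⟨k, by rw [hk, if_pos le_rfl, hc0], fun t => ?_⟩
  rcases le_or_gt 0 t with h1 | h1
  · refine Compl_congr (hc t (by linarith)) ?_
    filter_upwards [Ioi_mem_nhds (show -ε < t by linarith)] with u hu
    rw [hk]
    split_ifs with h2
    · rfl
    · exact (he ⟨hu, by linarith⟩).symm
  · refine Compl_congr (c := fun s => d (-s)) (hd' t (by linarith)) ?_
    filter_upwards [Iio_mem_nhds h1] with u hu
    rw [hk, if_neg (not_le.2 (mem_Iio.1 hu))]

end Crest.Agent.R264.P7
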