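import Crest.Agent.R264.P1
import Crest.Agent.R264.SCV3
import Crest.Agent.R264.Osgood

/-!
# Row 264, P7: completeness of bounded fields
-/

set_option autoImplicit false
open Set Filter Topology Metric

noncomputable section
namespace Crest.Agent.R264.P7

theorem Compl0_gronwall {E : Type*} [NormedAddCommGroup E] [NormedSpace ℝ E] {g : ℝ → E}
    {a b C : ℝ} (hg : ∀ t ∈ Ioo a b, ∃ g', HasDerivAt g g' t ∧ ‖g'‖ ≤ C * ‖g t‖) {t0 : ℝ}
    (ht0 : t0 ∈ Ioo a b) (hl : Tendsto g (𝓝[<] b) (𝓝 0)) : g t0 = 0 := by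
  choose! g' h1 h2 using hg
  have key : ∀ t ∈ Ioo t0 b, ‖g t0‖ ≤ ‖g t‖ * Real.exp (C * (t - t0)) := by
    intro t ht
    have hm : ∀ s ∈ Icc 0 (t - t0), t - s ∈ Ioo a b := fun s hs =>
      ⟨by linarith [hs.2, ht0.1], by linarith [hs.1, ht.2]⟩
    have hd : ∀ s ∈ Icc 0 (t - t0), HasDerivAt (fun s => g (t - s)) (-g' (t - s)) s :=
      fun s hs => (h1 _ (hm s hs)).comp_const_sub t s
    have := norm_le_gronwallBound_of_norm_deriv_right_le (δ := ‖g t‖) (K := C) (ε := 0)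
      (fun s hs => (hd s hs).continuousAt.continuousWithinAt)
      (fun s hs => (hd s (Ico_subset_Icc_self hs)).hasDerivWithinAt) (by simp)
      (fun s hs => by simpa using h2 _ (hm s (Ico_subset_Icc_self hs))) (t - t0)
      ⟨by linarith [ht.1], le_rfl⟩
    rwa [gronwallBound_ε0, sub_zero, sub_sub_cancel] at this
  have h3 : Tendsto (fun t => ‖g t‖ * Real.exp (C * (t - t0))) (𝓝[<] b)
      (𝓝 (‖(0 : E)‖ * Real.exp (C * (b - t0)))) :=
    hl.norm.mul (tendsto_nhdsWithin_of_tendsto_nhds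
      (by fun_prop : Continuous fun t => Real.exp (C * (t - t0))).continuousAt)
  rw [norm_zero, zero_mul] at h3
  exact norm_le_zero_iff.1 (ge_of_tendsto h3 (mem_of_superset (Ioo_mem_nhdsLT ht0.2) key))

/-- Hint: Gronwall backwards: `s ↦ g (t - s)` on `[0, t - t0]`
(`norm_le_gronwallBound_of_norm_deriv_right_le`) gives `‖g t0‖ ≤ ‖g t‖ * exp (|C| * (b - t0))`. -/
theorem ne_zero_of_gronwall {g : ℝ → ℂ} {a b C : ℝ}
    (hg : ∀ t ∈ Ioo a b, ∃ g', HasDerivAt g g' t ∧ ‖g'‖ ≤ C * ‖g t‖) {t0 : ℝ} (ht0 : t0 ∈ Ioo a b)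
    (h0 : g t0 ≠ 0) {l : ℂ} (hl : Tendsto g (𝓝[<] b) (𝓝 l)) : l ≠ 0 := by
  rintro rfl
  exact h0 (Compl0_gronwall hg ht0 hl)

/-- Integral curves with the same end point agree.  Hint: `Y` is Lipschitz on a ball around `p`
(`SCV.analyticAt`, `ContDiffAt.exists_lipschitzOnWith`); update `u`, `v` at `b` by `p`;
`ODE_solution_unique_of_mem_Icc_left` (or Gronwall on `[s, t]`, `t → b`). -/
theorem curve_eq_of_tendsto {E : Type*} [NormedAddCommGroup E] [NormedSpace ℂ E]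
    [FiniteDimensional ℂ E] {Y : E → E} {O : Set E} (hO : IsOpen O) (hY : DifferentiableOn ℂ Y O)
    {p : E} (hp : p ∈ O) {u v : ℝ → E} {b : ℝ}
    (hu : ∀ᶠ t in 𝓝[<] b, HasDerivAt u (Y (u t)) t) (hv : ∀ᶠ t in 𝓝[<] b, HasDerivAt v (Y (v t)) t)
    (hu' : Tendsto u (𝓝[<] b) (𝓝 p)) (hv' : Tendsto v (𝓝[<] b) (𝓝 p)) :
    ∀ᶠ t in 𝓝[<] b, u t = v t := by
  have := FiniteDimensional.complete ℂ E
  obtain ⟨K, S, hS, hK⟩ :=
    ((SCV.analyticAt hY (hO.mem_nhds hp)).contDiffAt (n := 1)).exists_lipschitzOnWith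
  obtain ⟨a, ha, h⟩ := (mem_nhdsLT_iff_exists_Ioo_subset (a := b)).1
    (hu.and (hv.and ((hu'.eventually hS).and (hv'.eventually hS))))
  filter_upwards [Ioo_mem_nhdsLT ha] with t ht
  refine sub_eq_zero.1 (Compl0_gronwall (g := fun t => u t - v t) (C := K)
    (fun s hs => ⟨_, (h hs).1.sub (h hs).2.1, ?_⟩) ht (by simpa using hu'.sub hv'))
  simpa [dist_eq_norm] using hK.dist_le_mul _ (h hs).2.2.1 _ (h hs).2.2.2

theorem Compl0_field (M : TM) (X : M.VF) (ch : Chart M.n M.U) : DifferentiableOn ℂ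
    (fun u => fderiv ℂ ch.l (ch.c u) ((X : CN M.N → CN M.N) (ch.c u))) ch.s :=
  ((SCV.differentiableOn_fderiv isOpen_univ ch.l_diff.differentiableOn).comp ch.c_diff
    (mapsTo_univ _ _)).clm_apply (ch.hol_comp X.2.1)

/-- Local integral curves on `U`.  Hint: in a chart `ch` at `x = ch.c u` the field
`Y u' = fderiv ch.l (ch.c u') (X (ch.c u'))` is holomorphic on `ch.s`, `exists_local_flow`,
`Chart.fderiv_c_l`. -/
theorem exists_local_curve (M : TM) (X : M.VF) {x : CN M.N} (hx : x ∈ M.U) (t0 : ℝ) :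
    ∃ ε > 0, ∃ c : ℝ → CN M.N, c t0 = x ∧ ∀ t ∈ Ioo (t0 - ε) (t0 + ε),
      c t ∈ M.U ∧ HasDerivAt c ((X : CN M.N → CN M.N) (c t)) t := by
  obtain ⟨ch, u, hu, rfl⟩ := M.chart x hx
  obtain ⟨ε, hε, Φ, -, h1, h2⟩ := exists_local_flow ch.s_open (Compl0_field M X ch) hu
  obtain ⟨h3, h4⟩ := h2 u (mem_ball_self hε)
  refine ⟨ε, hε, fun t => ch.c (Φ (((t - t0 : ℝ) : ℂ), u)), by simp [h3], fun t ht => ?_⟩
  have h5 : ((t - t0 : ℝ) : ℂ) ∈ ball (0 : ℂ) ε := by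
    rw [mem_ball_zero_iff, Complex.norm_real, Real.norm_eq_abs, abs_lt]
    exact ⟨by linarith [ht.1], by linarith [ht.2]⟩
  have h6 := h1 (mk_mem_prod h5 (mem_ball_self hε))
  have h7 := (h4 _ h5).scomp t (h := fun t : ℝ => ((t - t0 : ℝ) : ℂ))
    ((hasDerivAt_id t).sub_const t0).ofReal_comp
  have h8 := ((ch.differentiableAt h6).hasFDerivAt.restrictScalars ℝ).comp_hasDerivAt t h7
  rw [Complex.ofReal_one, one_smul, ContinuousLinearMap.coe_restrictScalars',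
    ch.fderiv_c_l h6 (X.2.2.1 _ (ch.maps h6))] at h8
  exact ⟨ch.maps h6, h8⟩

/-- Curves on `U` with the same end point in `U` agree (`curve_eq_of_tendsto` for `ch.l ∘ c`). -/
theorem curve_eq_of_tendsto_U (M : TM) (X : M.VF) {p : CN M.N} (hp : p ∈ M.U)
    {c d : ℝ → CN M.N} {b : ℝ}
    (hc : ∀ᶠ t in 𝓝[<] b, c t ∈ M.U ∧ HasDerivAt c ((X : CN M.N → CN M.N) (c t)) t)
    (hd : ∀ᶠ t in 𝓝[<] b, d t ∈ M.U ∧ HasDerivAt d ((X : CN M.N → CN M.N) (d t)) t)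
    (hc' : Tendsto c (𝓝[<] b) (𝓝 p)) (hd' : Tendsto d (𝓝[<] b) (𝓝 p)) :
    ∀ᶠ t in 𝓝[<] b, c t = d t := by
  obtain ⟨ch, u, hu, rfl⟩ := M.chart p hp
  have key : ∀ {c : ℝ → CN M.N},
      (∀ᶠ t in 𝓝[<] b, c t ∈ M.U ∧ HasDerivAt c ((X : CN M.N → CN M.N) (c t)) t) →
      Tendsto c (𝓝[<] b) (𝓝 (ch.c u)) → (∀ᶠ t in 𝓝[<] b, ch.c (ch.l (c t)) = c t) ∧
      ∀ᶠ t in 𝓝[<] b, HasDerivAt (fun t => ch.l (c t)) (fderiv ℂ ch.l (ch.c (ch.l (c t)))
        ((X : CN M.N → CN M.N) (ch.c (ch.l (c t))))) t := by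
    intro c h1 h2
    have h3 := (tendsto_nhdsWithin_iff.2 ⟨h2, h1.mono fun t ht => ht.1⟩).eventually (ch.ev_mem hu)
    refine ⟨h3.mono fun t ht => ht.2, ?_⟩
    filter_upwards [h1, h3] with t a1 a2
    rw [a2.2]
    exact ((ch.l_diff (c t)).hasFDerivAt.restrictScalars ℝ).comp_hasDerivAt t a1.2
  obtain ⟨a1, a2⟩ := key hc hc'
  obtain ⟨a3, a4⟩ := key hd hd'
  filter_upwards [a1, a3, curve_eq_of_tendsto ch.s_open (Compl0_field M X ch) hu a2 a4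
    ((ch.tendsto_l hu).comp hc') ((ch.tendsto_l hu).comp hd')] with t b1 b2 b3
  rw [← b1, ← b2, b3]

end Crest.Agent.R264.P7
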