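import Crest.Agent.R264.P7.Defs
import Crest.Agent.R264.P7.Compl0

/-!
# Row 264, P7: bounds for the field `η`
-/

set_option autoImplicit false
open Set Filter Topology Metric

noncomputable section
namespace Crest.Agent.R264.P7

open A MvPolynomial

theorem CoreA_bd {N : ℕ} {U : Set (CN N)} (hb : Bornology.IsBounded U) {G : Type*}
    [NormedAddCommGroup G] {f : CN N → G} (hf : Continuous f) : ∃ C : ℝ, ∀ x ∈ U, ‖f x‖ ≤ C := by
  obtain ⟨C, hC⟩ := hb.isCompact_closure.exists_bound_of_continuousOn hf.continuousOn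
  exact ⟨C, fun x hx => hC x (subset_closure hx)⟩

theorem CoreA_diff {N n : ℕ} {U : Set (CN N)} (F : AlgFrame n U) (Δ : Pl n) :
    Differentiable ℂ fun x => eval (F.pr x) Δ :=
  (differentiable_eval Δ).comp F.differentiable_pr

theorem CoreA_X_eq {N n : ℕ} {U : Set (CN N)} {F : AlgFrame n U} (e : Eta F) {x : CN N}
    (hx : x ∈ U) : e.X x = eval (F.pr x) e.Δ • ∑ i, e.η i x • F.xi i x := by
  rw [Eta.X, indicator_of_mem hx, Finset.smul_sum]
  simp only [mul_smul]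

/-- Hint: `A.root_bound`, `U` is bounded. -/
theorem Eta.bound {N n : ℕ} {U : Set (CN N)} {F : AlgFrame n U} (e : Eta F)
    (hb : Bornology.IsBounded U) : ∃ C : ℝ, ∀ x ∈ U, ∀ i, ‖e.η i x‖ ≤ C := by
  obtain ⟨R, hR⟩ := CoreA_bd hb F.differentiable_pr.continuous
  choose C hC using fun i => root_bound (e.monic i) R
  refine ⟨∑ i, |C i|, fun x hx i => ?_⟩
  refine ((hC i _ (hR x hx) _ (e.root x hx i)).trans (le_abs_self _)).trans ?_
  exact Finset.single_le_sum (f := fun i => |C i|) (fun _ _ => abs_nonneg _) (Finset.mem_univ i)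

theorem CoreA_Y_bound {N n : ℕ} {U : Set (CN N)} {F : AlgFrame n U} (e : Eta F)
    (hb : Bornology.IsBounded U) : ∃ C : ℝ, ∀ x ∈ U, ‖∑ i, e.η i x • F.xi i x‖ ≤ C := by
  obtain ⟨C, hC⟩ := e.bound hb
  choose D hD using fun i => CoreA_bd hb (F.differentiable_xi i).continuous
  refine ⟨∑ i, C * D i, fun x hx => (norm_sum_le _ _).trans (Finset.sum_le_sum fun i _ => ?_)⟩
  rw [norm_smul]
  exact mul_le_mul (hC x hx i) (hD i x hx) (norm_nonneg _) ((norm_nonneg _).trans (hC x hx i))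

theorem Eta.X_bound {N n : ℕ} {U : Set (CN N)} {F : AlgFrame n U} (e : Eta F)
    (hb : Bornology.IsBounded U) : ∃ C : ℝ, ∀ x ∈ U, ‖e.X x‖ ≤ C := by
  obtain ⟨C, hC⟩ := CoreA_Y_bound e hb
  obtain ⟨D, hD⟩ := CoreA_bd hb (CoreA_diff F e.Δ).continuous
  refine ⟨D * C, fun x hx => ?_⟩
  rw [CoreA_X_eq e hx, norm_smul]
  exact mul_le_mul (hD x hx) (hC x hx) (norm_nonneg _) ((norm_nonneg _).trans (hD x hx))

theorem Eta.X_mem (M : TM) {F : AlgFrame M.n M.U} (e : Eta F) : e.X ∈ M.VF := by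
  refine ⟨Hol.indicator (Hol.sum _ fun i _ => ?_), fun x hx => ?_,
    fun x hx => indicator_of_notMem hx _⟩
  · exact ((Hol.of_differentiable (CoreA_diff F e.Δ)).mul (e.hol i)).smul
      (Hol.of_differentiable (F.differentiable_xi i))
  · rw [CoreA_X_eq e hx]
    exact Submodule.smul_mem _ _ (Submodule.sum_mem _ fun i _ =>
      Submodule.smul_mem _ _ (M.xi_mem_T F i hx))

/-- The discriminant is not reached.  Hint: `g t = eval (pr (c t)) Δ` has the derivative
`a * g t * fderiv (fun x => eval (pr x) Δ) (c t) (∑ i, η i (c t) • xi i (c t))`, the last factor is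
bounded on `U`; `ne_zero_of_gronwall`. -/
theorem Eta.disc_ne {N n : ℕ} {U : Set (CN N)} {F : AlgFrame n U} (e : Eta F)
    (hb : Bornology.IsBounded U) (a : ℂ) {c : ℝ → CN N} {s b : ℝ}
    (hc : ∀ t ∈ Ioo s b, c t ∈ U ∧ HasDerivAt c (a • e.X (c t)) t) {t0 : ℝ} (ht0 : t0 ∈ Ioo s b)
    (h0 : eval (F.pr (c t0)) e.Δ ≠ 0) {p : CN N} (hp : Tendsto c (𝓝[<] b) (𝓝 p)) :
    eval (F.pr p) e.Δ ≠ 0 := by
  have hG := CoreA_diff F e.Δ
  have hG' : Continuous (fderiv ℂ fun x => eval (F.pr x) e.Δ) :=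
    (differentiableOn_univ.1
      (SCV.differentiableOn_fderiv isOpen_univ hG.differentiableOn)).continuous
  obtain ⟨C, hC⟩ := CoreA_Y_bound e hb
  obtain ⟨D, hD⟩ := CoreA_bd hb hG'
  refine ne_zero_of_gronwall (g := fun t => eval (F.pr (c t)) e.Δ) (C := ‖a‖ * (D * C))
    (fun t ht => ⟨_, ((hG (c t)).hasFDerivAt.restrictScalars ℝ).comp_hasDerivAt t (hc t ht).2, ?_⟩)
    ht0 h0 ((hG.continuous.tendsto p).comp hp)
  have hU := (hc t ht).1
  rw [ContinuousLinearMap.coe_restrictScalars', CoreA_X_eq e hU, map_smul, map_smul, norm_smul,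
    norm_smul, mul_assoc, mul_comm (D * C)]
  refine mul_le_mul_of_nonneg_left (mul_le_mul_of_nonneg_left ?_ (norm_nonneg _)) (norm_nonneg _)
  exact (ContinuousLinearMap.le_opNorm _ _).trans
    (mul_le_mul (hD _ hU) (hC _ hU) (norm_nonneg _) ((norm_nonneg _).trans (hD _ hU)))

end Crest.Agent.R264.P7
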