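import Crest.Agent.R264.P7.Indic0

/-!
# Row 264, P7: generic complex leaves meet a thin set in a countable set
-/

set_option autoImplicit false
open Set Filter Topology Metric MeasureTheory

noncomputable section
namespace Crest.Agent.R264.P7

/-- Generic leaves.  Hint: `exists_local_flow` gives `Φ`; pick `ℓ : CN n →L[ℂ] ℂ` with
`ℓ (Y p) = 1`, `H = ker ℓ` (real dimension `2 n - 2`); `Ψ (ζ, z) = Φ (ζ, p + z)` on `ℂ × H` has the
bijective derivative `(ζ, z) ↦ ζ • Y p + z` at `0`; `exists_locInv` (ball of a product = product of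
balls after `LocInv.symm.restrict`) gives the inverse `χ`; `Pj = (χ ·).2` is Lipschitz near `p`;
`dense_countable_fibre` gives `z j → 0`; `f j ζ = Ψ (ζ, z j)`, `f0 ζ = Ψ (ζ, 0)`. -/
theorem exists_leaves {n : ℕ} {Y : CN n → CN n} {O : Set (CN n)} (hO : IsOpen O)
    (hY : DifferentiableOn ℂ Y O) {p : CN n} (hp : p ∈ O) (h0 : Y p ≠ 0) {A : Set (CN n)}
    (hA : Thin2 A) :
    ∃ ε > 0, ∃ (f0 : ℂ → CN n) (f : ℕ → ℂ → CN n), f0 0 = p ∧
      (∀ ζ ∈ ball (0 : ℂ) ε, f0 ζ ∈ O ∧ HasDerivAt f0 (Y (f0 ζ)) ζ) ∧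
      (∀ j, ∀ ζ ∈ ball (0 : ℂ) ε, f j ζ ∈ O ∧ HasDerivAt (f j) (Y (f j ζ)) ζ) ∧
      (∀ j, {ζ | ζ ∈ ball (0 : ℂ) ε ∧ f j ζ ∈ A}.Countable) ∧
      ∀ ζ ∈ ball (0 : ℂ) ε, Tendsto (fun j => f j ζ) atTop (𝓝 (f0 ζ)) := by
  obtain ⟨ε, hε, Φ, hΦ, hΦO, hΦf⟩ := exists_local_flow hO hY hp
  obtain ⟨ℓ, hℓ⟩ := SeparatingDual.exists_eq_one (R := ℂ) h0
  let H : Submodule ℂ (CN n) := LinearMap.ker (ℓ : CN n →ₗ[ℂ] ℂ)
  have hHc : 1 + Module.finrank ℂ H = n := by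
    have h1 := LinearMap.finrank_range_add_finrank_ker (ℓ : CN n →ₗ[ℂ] ℂ)
    have h2 : LinearMap.range (ℓ : CN n →ₗ[ℂ] ℂ) = ⊤ := by
      rw [LinearMap.range_eq_top]
      intro c
      exact ⟨c • Y p, by simp [hℓ]⟩
    rw [h2, finrank_top, Module.finrank_self, Module.finrank_fin_fun] at h1
    exact h1
  have hHr : Module.finrank ℝ H = 2 * n - 2 := by
    have h1 := Module.finrank_mul_finrank ℝ ℂ H
    rw [Complex.finrank_real_complex] at h1
    omega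
  haveI : FiniteDimensional ℝ H := Module.Finite.trans ℂ H
  have hopen : IsOpen (ball (0 : ℂ) ε ×ˢ ball p ε) := isOpen_ball.prod isOpen_ball
  have h0p : ((0 : ℂ), p) ∈ ball (0 : ℂ) ε ×ˢ ball p ε := ⟨mem_ball_self hε, mem_ball_self hε⟩
  have hΦa : AnalyticAt ℂ Φ (0, p) := SCV.analyticAt hΦ (hopen.mem_nhds h0p)
  let L : ℂ × H →L[ℂ] ℂ × CN n :=
    (ContinuousLinearMap.fst ℂ ℂ H).prod (H.subtypeL.comp (ContinuousLinearMap.snd ℂ ℂ H))
  let Ψ : ℂ × H → CN n := fun q => Φ ((0, p) + L q)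
  have hΨ : ∀ (ζ : ℂ) (z : H), Ψ (ζ, z) = Φ (ζ, p + z) := by
    intro ζ z
    simp [Ψ, L]
  have hLa : AnalyticAt ℂ (fun q : ℂ × H => ((0 : ℂ), p) + L q) 0 :=
    analyticAt_const.add (L.analyticAt 0)
  have hΨa : AnalyticAt ℂ Ψ 0 := by
    refine AnalyticAt.comp_of_eq hΦa hLa ?_
    simp
  have hD1 : fderiv ℂ Φ (0, p) (1, 0) = Y p := by
    have h1 := ((hΦf p (mem_ball_self hε)).2 0 (mem_ball_self hε))
    rw [(hΦf p (mem_ball_self hε)).1] at h1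
    have h2 : HasDerivAt (fun s : ℂ => (s, p)) ((1 : ℂ), (0 : CN n)) 0 :=
      (hasDerivAt_id 0).prodMk (hasDerivAt_const 0 p)
    have h3 := hΦa.differentiableAt.hasFDerivAt.comp_hasDerivAt (0 : ℂ) h2
    exact h3.unique h1
  have hD2 : ∀ z : CN n, fderiv ℂ Φ (0, p) (0, z) = z := by
    intro z
    have h2 : HasFDerivAt (fun x : CN n => ((0 : ℂ), x)) (ContinuousLinearMap.inr ℂ ℂ (CN n)) p :=
      hasFDerivAt_prodMk_right 0 p
    have h3 := hΦa.differentiableAt.hasFDerivAt.comp p h2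
    have h4 : (Φ ∘ fun x : CN n => ((0 : ℂ), x)) =ᶠ[𝓝 p] id := by
      filter_upwards [ball_mem_nhds p hε] with x hx using (hΦf x hx).1
    have h5 := ((hasFDerivAt_id p).congr_of_eventuallyEq h4).unique h3
    exact (congrArg (fun T : CN n →L[ℂ] CN n => T z) h5).symm
  have hDΨ : fderiv ℂ Ψ 0 = (fderiv ℂ Φ (0, p)).comp L := by
    have h1 : HasFDerivAt (fun q : ℂ × H => ((0 : ℂ), p) + L q) L 0 := L.hasFDerivAt.const_add _
    have h2 : HasFDerivAt Φ (fderiv ℂ Φ (0, p)) (((0 : ℂ), p) + L 0) := by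
      rw [map_zero, add_zero]; exact hΦa.differentiableAt.hasFDerivAt
    exact (h2.comp (0 : ℂ × H) h1).fderiv
  have hinj : ∀ v, fderiv ℂ Ψ 0 v = 0 → v = 0 := by
    rintro ⟨ζ, z⟩ hv
    rw [hDΨ] at hv
    have e : L (ζ, z) = ζ • ((1 : ℂ), (0 : CN n)) + (0, (z : CN n)) := by simp [L]
    rw [ContinuousLinearMap.comp_apply, e, map_add, map_smul, hD1, hD2] at hv
    have hz : ℓ z = 0 := z.2
    have h1 := congrArg ℓ hv
    rw [map_add, map_smul, hℓ, hz, map_zero] at h1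
    have hζ : ζ = 0 := by simpa using h1
    rw [hζ, zero_smul, zero_add] at hv
    exact Prod.ext hζ (Subtype.ext hv)
  have hd : Module.finrank ℂ (ℂ × H) = Module.finrank ℂ (CN n) := by
    rw [Module.finrank_prod, Module.finrank_self, Module.finrank_fin_fun, hHc]
  obtain ⟨χ, O1, R, hR, h0O, -, hLI⟩ := exists_locInv_of_inj hd hΨa hinj univ_mem
  obtain ⟨K, t, ht, hK⟩ :=
    ((hLI.a2 _ (mem_ball_self hR)).contDiffAt (n := 1)).exists_lipschitzOnWith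
  have hPj : LipschitzOnWith (1 * K) (fun x => (χ x).2) t :=
    LipschitzWith.prod_snd.comp_lipschitzOnWith hK
  have hA' : LipCov (Module.finrank ℝ H) (A ∩ t) := by
    rw [hHr]; exact ((thin2_iff A).1 hA).mono inter_subset_left
  have hdense := dense_countable_fibre hA' (hPj.mono inter_subset_right)
  obtain ⟨δ0, hδ0, hball⟩ := Metric.mem_nhds_iff.1
    (inter_mem (hLI.o1.mem_nhds h0O) (hΨa.continuousAt.preimage_mem_nhds ht))
  set δ := min δ0 ε with hδdef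
  have hδ : 0 < δ := lt_min hδ0 hε
  have hin : ∀ ζ ∈ ball (0 : ℂ) δ, ∀ z ∈ ball (0 : H) δ, (ζ, z) ∈ O1 ∩ Ψ ⁻¹' t := by
    intro ζ hζ z hz
    apply hball
    rw [← Prod.mk_zero_zero, ← ball_prod_same]
    exact ⟨ball_subset_ball (min_le_left _ _) hζ, ball_subset_ball (min_le_left _ _) hz⟩
  have hpz : ∀ z ∈ ball (0 : H) δ, p + z ∈ ball p ε := by
    intro z hz
    rw [mem_ball_zero_iff] at hz
    rw [mem_ball, dist_self_add_left]
    exact lt_of_lt_of_le hz (min_le_right _ _)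
  have hflow : ∀ z ∈ ball (0 : H) δ, ∀ ζ ∈ ball (0 : ℂ) δ, Φ (ζ, p + z) ∈ O ∧
      HasDerivAt (fun s => Φ (s, p + z)) (Y (Φ (ζ, p + z))) ζ := by
    intro z hz ζ hζ
    have hζ' : ζ ∈ ball (0 : ℂ) ε := ball_subset_ball (min_le_right _ _) hζ
    exact ⟨hΦO ⟨hζ', hpz z hz⟩, (hΦf _ (hpz z hz)).2 ζ hζ'⟩
  obtain ⟨z, hz, hzt⟩ := mem_closure_iff_seq_limit.1
    (hdense.open_subset_closure_inter (isOpen_ball (x := (0 : H)) (ε := δ)) (mem_ball_self hδ))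
  refine ⟨δ, hδ, fun s => Φ (s, p + (0 : H)), fun j s => Φ (s, p + z j), ?_,
    hflow 0 (mem_ball_self hδ), fun j => hflow _ (hz j).1, fun j => ?_, fun ζ hζ => ?_⟩
  · simpa using (hΦf p (mem_ball_self hε)).1
  · refine MapsTo.countable_of_injOn (f := fun ζ => Ψ (ζ, z j)) ?_ ?_ (hz j).2
    · intro ζ hζ
      have h1 := hin ζ hζ.1 _ (hz j).1
      refine ⟨⟨?_, h1.2⟩, ?_⟩
      · show Ψ (ζ, z j) ∈ A
        rw [hΨ]; exact hζ.2
      · show (χ (Ψ (ζ, z j))).2 = z j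
        rw [hLI.li _ h1.1]
    · intro ζ hζ ζ' hζ' e
      have := hLI.injOn (hin ζ hζ.1 _ (hz j).1).1 (hin ζ' hζ'.1 _ (hz j).1).1 e
      exact congrArg Prod.fst this
  · have hζ' : ζ ∈ ball (0 : ℂ) ε := ball_subset_ball (min_le_right _ _) hζ
    have hc : ContinuousAt Φ (ζ, p + (0 : H)) :=
      hΦ.continuousOn.continuousAt (hopen.mem_nhds ⟨hζ', hpz 0 (mem_ball_self hδ)⟩)
    refine hc.tendsto.comp (tendsto_const_nhds.prodMk_nhds (tendsto_const_nhds.add ?_))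
    exact (continuous_subtype_val.tendsto _).comp hzt

end Crest.Agent.R264.P7
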