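import Crest.Agent.R264.P7.Core0
import Crest.Agent.R264.P7.CoreA
import Crest.Agent.R264.P7.Indic
import Crest.Agent.R264.P7.Compl

/-!
# Row 264, P7: the field `η` is complete, hence zero
-/

set_option autoImplicit false
open Set Filter Topology Metric

noncomputable section
namespace Crest.Agent.R264.P7

open A MvPolynomial

theorem Core_Y_diff {N n : ℕ} {U : Set (CN N)} {F : AlgFrame n U} (e : Eta F)
    {ψ : CN n → CN n} {B : Set (CN n)} (hB : Br e.q ψ B) : DifferentiableOn ℂ (e.Y ψ) B :=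
  (((differentiable_eval e.Δ).mul (differentiable_eval F.D)).differentiableOn).smul
    hB.an.differentiableOn

/-- The base point of a limit of leaves lies in `U` if one point of the limit leaf does. -/
theorem Core_leaf_limit (S : Setup) (e : Eta S.F) {ch : Chart S.n S.F.V} (hs : S.F.IsSect ch)
    {ψ : CN S.n → CN S.n} {B : Set (CN S.n)} (hB : Br e.q ψ B) (hBs : B ⊆ ch.s) {ε : ℝ}
    {f0 : ℂ → CN S.n} {f : ℕ → ℂ → CN S.n} (hf0 : ∀ ζ ∈ ball (0 : ℂ) ε, f0 ζ ∈ B)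
    (hf : ∀ j, ∀ ζ ∈ ball (0 : ℂ) ε, f j ζ ∈ B ∧ HasDerivAt (f j) (e.Y ψ (f j ζ)) ζ)
    (hc : ∀ j, {ζ | ζ ∈ ball (0 : ℂ) ε ∧ f j ζ ∈ S.F.pr '' S.F.Bad}.Countable)
    (hlim : ∀ ζ ∈ ball (0 : ℂ) ε, Tendsto (fun j => f j ζ) atTop (𝓝 (f0 ζ))) {ζ0 ζ1 : ℂ}
    (h0 : ζ0 ∈ ball (0 : ℂ) ε) (h1 : ζ1 ∈ ball (0 : ℂ) ε) (hU : ch.c (f0 ζ1) ∈ S.U)
    (hη : ∀ i, e.η i (ch.c (f0 ζ1)) = ψ (f0 ζ1) i) : ch.c (f0 ζ0) ∈ S.U := by
  have hl : ∀ ζ ∈ ball (0 : ℂ) ε, Tendsto (fun j => ch.c (f j ζ)) atTop (𝓝 (ch.c (f0 ζ))) :=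
    fun ζ hζ => ((ch.an _ (hBs (hf0 ζ hζ))).continuousAt.tendsto).comp (hlim ζ hζ)
  have e1 : ∀ᶠ j in atTop, ch.c (f j ζ1) ∈ S.U :=
    ((hl ζ1 h1).eventually (S.F.eventually_mem_U hU)).mono fun j hj =>
      hj (ch.maps (hBs (hf j ζ1 h1).1))
  have hl1 : Tendsto (fun j => ch.c (f j ζ1)) atTop (𝓝[S.U] (ch.c (f0 ζ1))) :=
    tendsto_nhdsWithin_iff.2 ⟨hl ζ1 h1, e1⟩
  have e2 : ∀ᶠ j in atTop, (fun i => e.η i (ch.c (f j ζ1))) = ψ (f j ζ1) := by
    refine hB.eventually_eq (φ := fun j i => e.η i (ch.c (f j ζ1))) (hf0 ζ1 h1) (hlim ζ1 h1)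
      (tendsto_pi_nhds.2 fun i => ?_) (e1.mono fun j hj i => ?_)
    · rw [← hη i]
      exact ((e.hol i).continuousOn _ hU).tendsto.comp hl1
    · have h := e.root _ hj i
      rwa [(hs.pr_c (hBs (hf j ζ1 h1).1)).1] at h
  obtain ⟨K, hKn, hK, hKU⟩ := S.toTM.exists_compact_nhds hU univ_mem
  obtain ⟨K', hK', hKU', h⟩ := S.taut.of_connected (Ω := ball (0 : ℂ) ε) (C := {ζ1, ζ0})
    isOpen_ball (convex_ball _ _).isPreconnected (toFinite _).isCompact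
    (insert_subset h1 (singleton_subset_iff.2 h0)) hK (hKU.trans inter_subset_left)
  refine hKU' (hK'.isClosed.mem_of_tendsto (hl ζ0 h0) ?_)
  filter_upwards [e1, e2, hl1.eventually hKn] with j a1 a2 a3
  refine h (fun ζ => ch.c (f j ζ)) (fun ζ hζ => ?_)
    (leaf_mem S e hs hB hBs (hf j) (hc j) h1 a1 (congrFun a2)) ⟨ζ1, mem_insert _ _, a3⟩
    (mem_insert_of_mem _ rfl)
  exact ((ch.an _ (hBs (hf j ζ hζ).1)).differentiableAt.comp ζ
    (hf j ζ hζ).2.differentiableAt).differentiableWithinAt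

/-- A point reached by a leaf of a branch lies in `U`.  Hint: if `Y u = 0` compare `w` with the
constant curve (`curve_eq_of_tendsto` for the field `a • Y`).  Otherwise `exists_leaves` with
`O = B`, `A = pr '' Bad` (`S.thin`); `t ↦ f0 (a * (t - b))` agrees with `w` near `b`; fix such a `t`,
`ζ1 = a * (t - b)`; for large `j`, `ch.c (f j ζ1) ∈ U` and `η = ψ` there (`Br.eventually_eq`), so
`leaf_mem` applies; `TautSet.of_connected` with `Ω = ball 0 ε`, `C = {ζ1, 0}`, `K` a compact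
neighbourhood (`TM.exists_compact_nhds`). -/
theorem mem_of_branch (S : Setup) (e : Eta S.F) {ch : Chart S.n S.F.V} (hs : S.F.IsSect ch)
    {ψ : CN S.n → CN S.n} {B : Set (CN S.n)} (hB : Br e.q ψ B) (hBs : B ⊆ ch.s) {u : CN S.n}
    (hu : u ∈ B) (a : ℂ) {w : ℝ → CN S.n} {b : ℝ}
    (hw : ∀ᶠ t in 𝓝[<] b, HasDerivAt w (a • e.Y ψ (w t)) t ∧ ch.c (w t) ∈ S.U ∧
      ∀ i, e.η i (ch.c (w t)) = ψ (w t) i)
    (hl : Tendsto w (𝓝[<] b) (𝓝 u)) : ch.c u ∈ S.U := by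
  have hY := Core_Y_diff e hB
  have hY' : DifferentiableOn ℂ (fun x => a • e.Y ψ x) B := hY.const_smul a
  by_cases h0 : e.Y ψ u = 0
  · have h := curve_eq_of_tendsto hB.opn hY' hu (u := w) (v := fun _ => u)
      (hw.mono fun t ht => ht.1)
      (Eventually.of_forall fun t => by simpa [h0] using hasDerivAt_const t u) hl
      tendsto_const_nhds
    obtain ⟨t, h1, h2⟩ := (h.and hw).exists
    exact h1 ▸ h2.2.1
  obtain ⟨ε, hε, f0, f, hf00, hf0, hf, hc, hlim⟩ := exists_leaves hB.opn hY hu h0 S.thin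
  have hζ : ∀ t : ℝ, HasDerivAt (fun t : ℝ => a * ((t : ℂ) - b)) a t := fun t => by
    simpa using ((Complex.ofRealCLM.hasDerivAt (x := t)).sub_const (b : ℂ)).const_mul a
  have hζ0 : Tendsto (fun t : ℝ => a * ((t : ℂ) - b)) (𝓝[<] b) (𝓝 0) := by
    have := (hζ b).continuousAt.tendsto.mono_left (nhdsWithin_le_nhds (s := Iio b))
    simpa using this
  have hball : ∀ᶠ t : ℝ in 𝓝[<] b, a * ((t : ℂ) - b) ∈ ball (0 : ℂ) ε :=
    hζ0.eventually (ball_mem_nhds _ hε)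
  have h := curve_eq_of_tendsto hB.opn hY' hu (u := w) (v := fun t => f0 (a * ((t : ℂ) - b)))
    (hw.mono fun t ht => ht.1) (hball.mono fun t ht => (hf0 _ ht).2.scomp t (hζ t)) hl
    (hf00 ▸ ((hf0 0 (mem_ball_self hε)).2.continuousAt.tendsto).comp hζ0)
  obtain ⟨t, h1, h2, -, h3, h4⟩ := (h.and (hball.and hw)).exists
  rw [h1] at h3 h4
  exact hf00 ▸ Core_leaf_limit S e hs hB hBs (fun ζ hζ => (hf0 ζ hζ).1) hf hc hlim
    (mem_ball_self hε) h2 h3 h4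

/-- Hint: if `Δ ∘ pr ∘ c` vanishes on `Ioo s b` then `c' = 0` and `c` is constant.  Otherwise
`disc_ne`, a section `ch` at `p` (`exists_sect'`), `exists_br` along `𝓝[<] b`, shrink `B` to
`B ∩ ch.s`, `Br.eqOn` on `Ioo t1 b`, `w = pr ∘ c` (`fderiv_pr_xi`), `mem_of_branch`. -/
theorem limit_mem (S : Setup) (e : Eta S.F) (a : ℂ) {c : ℝ → CN S.N} {s b : ℝ} (hsb : s < b)
    (hc : ∀ t ∈ Ioo s b, c t ∈ S.U ∧ HasDerivAt c (a • e.X (c t)) t) {p : CN S.N}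
    (hp : Tendsto c (𝓝[<] b) (𝓝 p)) : p ∈ S.U := by
  have hI : ∀ᶠ t in 𝓝[<] b, t ∈ Ioo s b := Ioo_mem_nhdsLT hsb
  by_cases h : ∀ t ∈ Ioo s b, eval (S.F.pr (c t)) e.Δ = 0
  · have h1 := curve_eq_of_tendsto (Y := fun _ => (0 : CN S.N)) isOpen_univ
      (differentiableOn_const _) (mem_univ p) (u := c) (v := fun _ => p)
      (hI.mono fun t ht => by
        have h2 := (hc t ht).2
        rw [Eta.X, indicator_of_mem (hc t ht).1, h t ht] at h2
        simpa using h2)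
      (Eventually.of_forall fun t => hasDerivAt_const t p) hp tendsto_const_nhds
    obtain ⟨t, h2, h3⟩ := (h1.and hI).exists
    exact h2 ▸ (hc t h3).1
  push Not at h
  obtain ⟨t0, ht0, h0⟩ := h
  have hΔ := e.disc_ne S.bdd a hc ht0 h0 hp
  have hV : p ∈ S.F.V :=
    S.F.closure_subset (mem_closure_of_tendsto hp (hI.mono fun t ht => (hc t ht).1))
  obtain ⟨ch, hs, u, hu, rfl⟩ := S.F.exists_sect' hV (e.dv _ hΔ)
  have hpu := (hs.pr_c hu).1
  have hw : Tendsto (fun t => S.F.pr (c t)) (𝓝[<] b) (𝓝 u) := by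
    have := (S.F.differentiable_pr.continuous.tendsto _).comp hp
    rwa [hpu] at this
  rw [hpu] at hΔ
  obtain ⟨ψ, B, hB, huB, hfr⟩ := exists_br e.monic (e.simple u hΔ) (φ := fun t i => e.η i (c t)) hw
    (hI.mono fun t ht i => e.root _ (hc t ht).1 i)
  have hB' : Br e.q ψ (B ∩ ch.s) := hB.mono (hB.opn.inter ch.s_open) inter_subset_left
  have e1 : ∀ᶠ t in 𝓝[<] b, t ∈ Ioo s b ∧ S.F.pr (c t) ∈ B ∩ ch.s ∧
      ch.c (S.F.pr (c t)) = c t := by
    filter_upwards [hI, hw.eventually (hB'.opn.mem_nhds ⟨huB, hu⟩),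
      hp.eventually (ch.eventually_mem hu)] with t a1 a2 a3
    refine ⟨a1, a2, ?_⟩
    rw [← hs.1]
    exact (a3 (S.F.U_subset (hc t a1).1)).2
  obtain ⟨t1, ht1, h1⟩ := mem_nhdsLT_iff_exists_Ioo_subset.1 e1
  have hI1 : ∀ᶠ t in 𝓝[<] b, t ∈ Ioo t1 b := Ioo_mem_nhdsLT ht1
  obtain ⟨t2, h2, ht2⟩ := (hfr.and_eventually hI1).exists
  have hcc : ContinuousOn c (Ioo t1 b) := fun t ht =>
    (hc t (h1 ht).1).2.continuousAt.continuousWithinAt
  have h3 := hB'.eqOn (C := Ioo t1 b) isPreconnected_Ioo (t := fun t => S.F.pr (c t))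
    (φ := fun t i => e.η i (c t)) (S.F.differentiable_pr.continuous.comp_continuousOn hcc)
    (continuousOn_pi.2 fun i => (e.hol i).continuousOn.comp hcc fun t ht => (hc t (h1 ht).1).1)
    (fun t ht => (h1 ht).2.1) (fun t ht i => e.root _ (hc t (h1 ht).1).1 i) ht2 h2
  refine mem_of_branch S e hs hB' inter_subset_right ⟨huB, hu⟩ a (w := fun t => S.F.pr (c t))
    (hI1.mono fun t ht => ?_) hw
  obtain ⟨a1, a2, a3⟩ := h1 ht
  obtain ⟨b1, b2⟩ := hc t a1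
  rw [a3]
  refine ⟨?_, b1, congrFun (h3 t ht)⟩
  have hd : S.F.dv (c t) ≠ 0 := (hs.2 _ a2.2).1
  have h4 := ((S.F.differentiable_pr (c t)).hasFDerivAt.restrictScalars ℝ).comp_hasDerivAt t b2
  refine h4.congr_deriv ?_
  rw [ContinuousLinearMap.coe_restrictScalars', map_smul, Eta.X, indicator_of_mem b1,
    S.F.fderiv_pr_xi (S.F.U_subset b1) hd, Eta.Y, ← h3 t ht]
  congr 1
  funext i
  simp only [Pi.smul_apply, smul_eq_mul, AlgFrame.dv]
  ring

theorem eta_false (S : Setup) (e : Eta S.F) : False := by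
  obtain ⟨C, hC⟩ := e.X_bound S.bdd
  let X : S.toTM.VF := ⟨e.X, e.X_mem S.toTM⟩
  have key : ∀ a : ℂ, a • X ∈ S.toTM.g := fun a =>
    mem_g_of_limit S.toTM (a • X) (C := ‖a‖ * C) (fun x hx => by
      change ‖a • e.X x‖ ≤ _
      rw [norm_smul]
      exact mul_le_mul_of_nonneg_left (hC x hx) (norm_nonneg _))
      fun σ _ c s b hsb hc p hp => limit_mem S e (σ * a) hsb (fun t ht => ⟨(hc t ht).1, by
        rw [mul_smul]; exact (hc t ht).2⟩) hp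
  obtain ⟨x, hx, hΔ, i, hi⟩ := e.ne
  have h0 := S.toTM.noC ⟨(1 : ℂ) • X, key 1⟩ ⟨Complex.I • X, key Complex.I⟩ (by
    apply Subtype.ext
    change ⁅(1 : ℂ) • X, Complex.I • X⁆ = 0
    rw [one_smul, lie_smul, lie_self, smul_zero]) hx (c := Complex.I) (by simp) (by
    change Complex.I • e.X x = Complex.I • (1 : ℂ) • e.X x
    rw [one_smul])
  change (1 : ℂ) • e.X x = 0 at h0
  rw [one_smul, Eta.X, indicator_of_mem hx] at h0
  have := congrFun (AlgFrame.xi_indep (S.F.U_subset hx) (e.dv _ hΔ) h0) i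
  exact mul_ne_zero hΔ hi this

end Crest.Agent.R264.P7
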