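import Crest.Agent.R264.P7.Wedge0

/-!
# Row 264, P7: uniqueness on a wedge in the complexified hypersurface
-/

set_option autoImplicit false
open Set Filter Topology Metric

noncomputable section
namespace Crest.Agent.R264.P7

/-- `(α, β) ↦ (α, star α) + I • (β, star β)`. -/
def Wedge_G {n : ℕ} (x : CN n × CN n) : CN n × CN n :=
  (x.1, star x.1) + Complex.I • (x.2, star x.2)

/-- The inverse of `Wedge_G`. -/
def Wedge_H {n : ℕ} (y : CN n × CN n) : CN n × CN n :=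
  ((2⁻¹ : ℂ) • (y.1 + star y.2), (-Complex.I / 2) • (y.1 - star y.2))

theorem Wedge_G_cont {n : ℕ} : Continuous (Wedge_G : CN n × CN n → CN n × CN n) := by
  unfold Wedge_G; fun_prop

theorem Wedge_H_cont {n : ℕ} : Continuous (Wedge_H : CN n × CN n → CN n × CN n) := by
  unfold Wedge_H; fun_prop

theorem Wedge_G_H {n : ℕ} (y : CN n × CN n) : Wedge_G (Wedge_H y) = y := by
  ext i <;> apply Complex.ext <;> simp [Wedge_G, Wedge_H] <;> ring

theorem Wedge_H_G {n : ℕ} (x : CN n × CN n) : Wedge_H (Wedge_G x) = x := by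
  ext i <;> apply Complex.ext <;> simp [Wedge_G, Wedge_H] <;> ring

theorem Wedge_G_zero {n : ℕ} (α : CN n) : Wedge_G (α, 0) = (α, star α) := by
  simp [Wedge_G]

theorem Wedge_disc {n : ℕ} (α β : CN n) (ζ : ℂ) :
    ((α, star α) : CN n × CN n) + ζ • (β, star β) = Wedge_G (α + ζ.re • β, ζ.im • β) := by
  ext i <;> apply Complex.ext <;> simp [Wedge_G] <;> ring

/-- **Wedge uniqueness.**  Hint: `exists_sym_retr`.  For `α` near `a` and small `β ∈ C` the disc
`ζ ↦ R ((α, star α) + ζ • (β, star β))`, `|ζ| < 2`, equals `R (G (α + re ζ • β, im ζ • β))`; by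
`half_disc` `h (R (G (α, β))) = 0`.  `G` is a real-linear bijection (homeomorphism), so `h ∘ R = 0`
on an open set containing `y1 = G (a, s • β0)`; put `z1 = R y1`; for `z` near `z1` with `P z = 0`,
`y = z - τ y1 • V` is near `y1` and `τ y = τ y1` by uniqueness, so `R y = z`. -/
theorem wedge {n : ℕ} {P : CN n × CN n → ℂ} {a ν : CN n} (hP : AnalyticAt ℂ P (a, star a))
    (herm : ∀ z, P (sw z) = star (P z)) (h0 : P (a, star a) = 0)
    (h1 : fderiv ℂ P (a, star a) (ν, 0) ≠ 0) {Nb : Set (CN n × CN n)} (hNb : IsOpen Nb)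
    (ha : (a, star a) ∈ Nb) :
    ∃ z1 ∈ Nb, P z1 = 0 ∧ 0 < (P (z1.1, star z1.1)).re ∧ ∃ T ∈ 𝓝 z1, ∀ h : CN n × CN n → ℂ,
      DifferentiableOn ℂ h {z | z ∈ Nb ∧ 0 < (P (z.1, star z.1)).re} →
      (∀ b : CN n, (b, star b) ∈ Nb → P (b, star b) = 0 →
        Tendsto h (𝓝[{z | z ∈ Nb ∧ 0 < (P (z.1, star z.1)).re}] (b, star b)) (𝓝 0)) →
      ∀ z ∈ T, P z = 0 → h z = 0 := by
  obtain ⟨V, τ, C, hτ, hτ0, huniq, hreal, hCo, ⟨β0, hβ0⟩, hCs, hpos⟩ :=
    exists_sym_retr hP herm h0 h1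
  set R : CN n × CN n → CN n × CN n := fun y => y + τ y • V with hR
  have hG : Tendsto Wedge_G (𝓝 (a, (0 : CN n))) (𝓝 (a, star a)) := by
    rw [← Wedge_G_zero]
    exact Wedge_G_cont.tendsto _
  have hτt : Tendsto τ (𝓝 (a, star a)) (𝓝 0) := by
    rw [← hτ0]
    exact hτ.continuousAt
  have hRt : Tendsto R (𝓝 (a, star a)) (𝓝 (a, star a)) := by
    have := tendsto_id.add (hτt.smul_const V)
    rwa [zero_smul, add_zero] at this
  have hgr : Tendsto (fun y => (y, τ y)) (𝓝 (a, star a)) (𝓝 ((a, star a), (0 : ℂ))) :=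
    tendsto_id.prodMk_nhds hτt
  have hall : ∀ᶠ x in 𝓝 (a, (0 : CN n)), AnalyticAt ℂ τ (Wedge_G x) ∧ R (Wedge_G x) ∈ Nb ∧
      (∀ᶠ w in 𝓝 (Wedge_G x, τ (Wedge_G x)), P (w.1 + w.2 • V) = 0 ↔ τ w.1 = w.2) ∧
      (x.2 ∈ C → 0 < (P ((R (Wedge_G x)).1, star (R (Wedge_G x)).1)).re) ∧
      ∃ b : CN n, R (x.1, star x.1) = (b, star b) := by
    filter_upwards [hG.eventually hτ.eventually_analyticAt,
      (hRt.comp hG).eventually (hNb.mem_nhds ha),
      (hgr.comp hG).eventually huniq.eventually_nhds, hpos,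
      (continuous_fst.tendsto (a, (0 : CN n))).eventually hreal] with x e1 e2 e3 e4 e5
    exact ⟨e1, e2, e3, fun hx => e4 hx _ rfl, e5⟩
  obtain ⟨ε, hε, hb⟩ := Metric.eventually_nhds_iff_ball.1 hall
  have hP0 : ∀ x ∈ ball (a, (0 : CN n)) ε, P (R (Wedge_G x)) = 0 := fun x hx =>
    (hb x hx).2.2.1.self_of_nhds.2 rfl
  obtain ⟨s, hs, hsβ⟩ : ∃ s : ℝ, 0 < s ∧ ‖s • β0‖ < ε / 3 := by
    refine ⟨ε / 3 / (‖β0‖ + 1), by positivity, ?_⟩
    rw [norm_smul, Real.norm_of_nonneg (by positivity), div_mul_eq_mul_div,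
      div_lt_iff₀ (by positivity)]
    exact mul_lt_mul_of_pos_left (lt_add_one _) (by positivity)
  have hx1 : (a, s • β0) ∈ ball (a, (0 : CN n)) (ε / 3) := by
    rw [← ball_prod_same]
    exact ⟨mem_ball_self (by positivity), mem_ball_zero_iff.2 hsβ⟩
  have hx1' : (a, s • β0) ∈ ball (a, (0 : CN n)) ε := ball_subset_ball (by linarith) hx1
  set y1 := Wedge_G (a, s • β0) with hy1
  have hsub : Tendsto (fun z => z - τ y1 • V) (𝓝 (R y1)) (𝓝 y1) := by
    have := (tendsto_id (x := 𝓝 (R y1))).sub_const (τ y1 • V)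
    rwa [hR, add_sub_cancel_right] at this
  have hH : Tendsto Wedge_H (𝓝 y1) (𝓝 (a, s • β0)) := by
    have := Wedge_H_cont.tendsto y1
    rwa [hy1, Wedge_H_G] at this
  have hT : ∀ᶠ z in 𝓝 (R y1), Wedge_H (z - τ y1 • V) ∈ ball (a, (0 : CN n)) (ε / 3) ∧
      (Wedge_H (z - τ y1 • V)).2 ∈ C ∧
      (P (z - τ y1 • V + τ y1 • V) = 0 ↔ τ (z - τ y1 • V) = τ y1) := by
    filter_upwards [(hH.comp hsub).eventually (isOpen_ball.mem_nhds hx1),
      (((continuous_snd.tendsto _).comp hH).comp hsub).eventually (hCo.mem_nhds (hCs _ hβ0 s hs)),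
      (hsub.prodMk_nhds tendsto_const_nhds).eventually (hb _ hx1').2.2.1] with z e1 e2 e3
    exact ⟨e1, e2, e3⟩
  refine ⟨R y1, (hb _ hx1').2.1, hP0 _ hx1', (hb _ hx1').2.2.2.1 (hCs _ hβ0 s hs), _, hT,
    fun h hd hlim z hz hPz => ?_⟩
  have key : ∀ x ∈ ball (a, (0 : CN n)) (ε / 3), x.2 ∈ C → h (R (Wedge_G x)) = 0 := by
    rintro ⟨α, β⟩ hx hβ
    rw [← ball_prod_same] at hx
    have hα : ‖α - a‖ < ε / 3 := mem_ball_iff_norm.1 hx.1
    have hβ' : ‖β‖ < ε / 3 := mem_ball_zero_iff.1 hx.2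
    have hsm : ∀ t : ℝ, |t| < 2 → ‖t • β‖ ≤ 2 * (ε / 3) := fun t ht => by
      rw [norm_smul, Real.norm_eq_abs]
      exact mul_le_mul ht.le hβ'.le (norm_nonneg _) zero_le_two
    have hmem : ∀ ζ ∈ ball (0 : ℂ) 2, (α + ζ.re • β, ζ.im • β) ∈ ball (a, (0 : CN n)) ε := by
      intro ζ hζ
      rw [mem_ball_zero_iff] at hζ
      have e1 := hsm _ ((Complex.abs_re_le_norm ζ).trans_lt hζ)
      have e2 := hsm _ ((Complex.abs_im_le_norm ζ).trans_lt hζ)
      rw [← ball_prod_same]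
      refine ⟨mem_ball_iff_norm.2 ?_, mem_ball_zero_iff.2 (by linarith)⟩
      have e3 := norm_add_le (α - a) (ζ.re • β)
      rw [sub_add_eq_add_sub] at e3
      exact e3.trans_lt (by linarith)
    set φ : ℂ → CN n × CN n := fun ζ => R ((α, star α) + ζ • (β, star β)) with hφ
    have hφd : ∀ ζ ∈ ball (0 : ℂ) 2, DifferentiableAt ℂ φ ζ := by
      intro ζ hζ
      have e1 := (hb _ (hmem ζ hζ)).1
      rw [← Wedge_disc] at e1
      have e2 : DifferentiableAt ℂ
          (fun ζ : ℂ => ((α, star α) : CN n × CN n) + ζ • (β, star β)) ζ := by fun_prop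
      exact e2.add ((e1.differentiableAt.comp ζ e2).smul_const V)
    have hφm : MapsTo φ {ζ | ζ ∈ ball (0 : ℂ) 2 ∧ 0 < ζ.im}
        {z | z ∈ Nb ∧ 0 < (P (z.1, star z.1)).re} := by
      intro ζ hζ
      have e1 := hb _ (hmem ζ hζ.1)
      rw [← Wedge_disc] at e1
      exact ⟨e1.2.1, e1.2.2.2.1 (hCs _ hβ _ hζ.2)⟩
    have := half_disc (R := 2) (f := h ∘ φ)
      (hd.comp (fun ζ hζ => (hφd ζ hζ.1).differentiableWithinAt) hφm) (fun t ht => by
        have ht' : (t : ℂ) ∈ ball (0 : ℂ) 2 := by simpa using ht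
        have e1 := hb _ (hmem t ht')
        have e2 := hP0 _ (hmem t ht')
        obtain ⟨b, e3⟩ := e1.2.2.2.2
        have e4 : φ t = (b, star b) := by
          rw [← e3, hφ]
          simp only [Wedge_disc, Complex.ofReal_im, zero_smul, Wedge_G_zero]
        have e5 := e1.2.1
        rw [← Wedge_disc] at e2 e5
        change P (φ t) = 0 at e2
        change φ t ∈ Nb at e5
        rw [e4] at e2 e5
        refine (hlim b e5 e2).comp ?_
        rw [← e4]
        exact (hφd t ht').continuousAt.continuousWithinAt.tendsto_nhdsWithin hφm)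
      Complex.I (by simp) (by simp)
    exact this
  obtain ⟨e1, e2, e3⟩ := hz
  have e4 := key _ e1 e2
  rw [sub_add_cancel] at e3
  rw [Wedge_G_H, hR] at e4
  simp only [e3.1 hPz, sub_add_cancel] at e4
  exact e4

end Crest.Agent.R264.P7
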