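import Crest.Agent.R264.P7.Defs
import Crest.Agent.R264.P7.Wedge

/-!
# Row 264, P7: from a bounded tangent frame to a relation on the complexified hypersurface
-/

set_option autoImplicit false
open Set Filter Topology Metric

noncomputable section
namespace Crest.Agent.R264.P7

open A MvPolynomial

variable {N n : ℕ} {U : Set (CN N)} {F : AlgFrame n U}

/-- Hint: `(x, y) ↦ (F.pr x, star (F.pr y))` tends to `z1`; `Chart.eventually_mem`. -/
theorem rel_of_chart {ch : Chart n F.V} (hs : F.IsSect ch) {η : Fin n → CN N → ℂ} {ρ : P2 N}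
    {z1 : CN n × CN n} (h1 : z1.1 ∈ ch.s) (h2 : star z1.2 ∈ ch.s)
    (h : ∀ᶠ z in 𝓝 z1, cpol ρ ch.c z = 0 → ∑ i, η i (ch.c z.1) * cpol (hQ F ρ i) ch.c z = 0) :
    Rel F η ρ (ch.c z1.1) (ch.c (star z1.2)) := by
  have hc : Continuous fun w : CN N × CN N => (F.pr w.1, star (F.pr w.2)) :=
    (F.differentiable_pr.continuous.comp continuous_fst).prodMk
      (F.differentiable_pr.continuous.comp continuous_snd).star
  have ht : Tendsto (fun w : CN N × CN N => (F.pr w.1, star (F.pr w.2)))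
      (𝓝 (ch.c z1.1, ch.c (star z1.2))) (𝓝 z1) := by
    have := hc.tendsto (ch.c z1.1, ch.c (star z1.2))
    simpa only [(hs.pr_c h1).1, (hs.pr_c h2).1, star_star, Prod.mk.eta] using this
  have e1 : ∀ᶠ w in 𝓝 (ch.c z1.1, ch.c (star z1.2)),
      w.1 ∈ F.V → ch.l w.1 ∈ ch.s ∧ ch.c (ch.l w.1) = w.1 :=
    (continuous_fst.continuousAt (x := (ch.c z1.1, ch.c (star z1.2)))).eventually
      (ch.eventually_mem h1)
  have e2 : ∀ᶠ w in 𝓝 (ch.c z1.1, ch.c (star z1.2)),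
      w.2 ∈ F.V → ch.l w.2 ∈ ch.s ∧ ch.c (ch.l w.2) = w.2 :=
    (continuous_snd.continuousAt (x := (ch.c z1.1, ch.c (star z1.2)))).eventually
      (ch.eventually_mem h2)
  unfold Rel
  filter_upwards [self_mem_nhdsWithin, nhdsWithin_le_nhds e1, nhdsWithin_le_nhds e2,
    nhdsWithin_le_nhds (ht.eventually h)] with w hw a1 a2 a3
  have b1 := (a1 hw.1).2
  have b2 := (a2 hw.2).2
  rw [hs.1] at b1 b2
  simpa only [cpol, star_star, b1, b2] using a3

/-- Hint: `z ↦ (ch.c z.1, ch.c (star z.2))` tends to the base point within `V ×ˢ V`. -/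
theorem chart_of_rel {ch : Chart n F.V} {η : Fin n → CN N → ℂ} {ρ : P2 N}
    {z1 : CN n × CN n} (h1 : z1.1 ∈ ch.s) (h2 : star z1.2 ∈ ch.s)
    (h : Rel F η ρ (ch.c z1.1) (ch.c (star z1.2))) :
    ∀ᶠ z in 𝓝 z1, cpol ρ ch.c z = 0 → ∑ i, η i (ch.c z.1) * cpol (hQ F ρ i) ch.c z = 0 := by
  have c1 : ContinuousAt (fun z : CN n × CN n => ch.c z.1) z1 :=
    ContinuousAt.comp (f := fun z : CN n × CN n => z.1) (ch.an _ h1).continuousAt continuousAt_fst
  have c2 : ContinuousAt (fun z : CN n × CN n => ch.c (star z.2)) z1 :=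
    ContinuousAt.comp (f := fun z : CN n × CN n => star z.2) (ch.an _ h2).continuousAt
      continuous_snd.star.continuousAt
  have ht : Tendsto (fun z : CN n × CN n => (ch.c z.1, ch.c (star z.2))) (𝓝 z1)
      (𝓝[F.V ×ˢ F.V] (ch.c z1.1, ch.c (star z1.2))) := by
    refine tendsto_nhdsWithin_iff.2 ⟨c1.prodMk c2, ?_⟩
    filter_upwards [continuous_fst.continuousAt.eventually (ch.s_open.mem_nhds h1),
      (continuous_snd.star.continuousAt (x := z1)).eventually (ch.s_open.mem_nhds h2)] with z a1 a2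
    exact ⟨ch.maps a1, ch.maps a2⟩
  exact ht.eventually h

/-- Hint: a section `ch` at `a0 = ch.c u` (`exists_sect'`), `P = cpol ρ ch.c`, `ν` from
`GoodSide.exists_fderiv_ne`, `e = star ν` (`fderiv_sw`, `cpol_sw`); `Nb` = an open neighbourhood of
`(u, star u)` on which `z.1, star z.2 ∈ ch.s`, `ch.c z.1 ∈ O ∩ W`, `ch.c (star z.2) ∈ W`,
`fderiv P z (0, e) ≠ 0`; `wedge` for `h l z = dx ρ (ch.c z.1) (star (ch.c (star z.2))) (Ξ l (ch.c z.1))`
(`dx_eq_sum`; the limit at real points from the bound `C`, continuity of the coefficients and the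
last clause of `TanFrame`); `Submodule.span_induction` / `mem_span_range_iff_exists_fun`, `dx_sum`. -/
theorem stepA {ρ : P2 N} {a0 : CN N} (hg : F.GoodSide a0 ρ) {c : Fin n → CN N → ℂ}
    (hT : TanFrame F ρ a0 (fun x => Submodule.span ℂ {∑ i, c i x • F.xi i x})) {W : Set (CN N)}
    (hW : W ∈ 𝓝 a0) :
    ∃ ch : Chart n F.V, F.IsSect ch ∧ ∃ z1 : CN n × CN n, z1.1 ∈ ch.s ∧ star z1.2 ∈ ch.s ∧
      ch.c z1.1 ∈ W ∧ ch.c z1.1 ∈ U ∧ ch.c (star z1.2) ∈ W ∧ 0 < rv ρ (ch.c z1.1) ∧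
      cpol ρ ch.c z1 = 0 ∧ (∃ e, fderiv ℂ (cpol ρ ch.c) z1 (0, e) ≠ 0) ∧
      ∀ᶠ z in 𝓝 z1, cpol ρ ch.c z = 0 → ∑ i, c i (ch.c z.1) * cpol (hQ F ρ i) ch.c z = 0 := by
  obtain ⟨O, hO, ha0, hsub, d, Ξ, C, hhol, hbd, hlim⟩ := hT
  obtain ⟨ch, hs, u, hu, rfl⟩ := F.exists_sect' hg.mem hg.dv_ne
  obtain ⟨ν, hν⟩ := hg.exists_fderiv_ne hs hu
  have hu' : star (u, star u).2 ∈ ch.s := by simpa using hu
  have han : ∀ (Q : P2 N) (z : CN n × CN n), z.1 ∈ ch.s → star z.2 ∈ ch.s →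
      AnalyticAt ℂ (cpol Q ch.c) z := fun Q z a b => cpol_analyticAt Q (ch.an _ a) (ch.an _ b)
  have hc1 : ∀ z : CN n × CN n, z.1 ∈ ch.s → AnalyticAt ℂ (fun z : CN n × CN n => ch.c z.1) z :=
    fun z a => AnalyticAt.comp (f := fun z : CN n × CN n => z.1) (ch.an _ a) analyticAt_fst
  have hP := han ρ (u, star u) hu hu'
  have herm := cpol_sw hg.herm ch.c
  have hre : ∀ x, (cpol ρ ch.c (x, star x)).re = rv ρ (ch.c x) := fun x => by
    rw [cpol_real hg.herm, Complex.ofReal_re]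
  have h0 : cpol ρ ch.c (u, star u) = 0 := by rw [cpol_real hg.herm, hg.zero, Complex.ofReal_zero]
  have he : fderiv ℂ (cpol ρ ch.c) (u, star u) (0, star ν) ≠ 0 := by
    have := fderiv_sw hP (Eventually.of_forall herm) (ν, 0)
    rw [sw_real, show sw ((ν, 0) : CN n × CN n) = (0, star ν) by simp [sw]] at this
    rw [this]
    exact star_ne_zero.2 hν
  have hG : ∀ᶠ z in 𝓝 ((u, star u) : CN n × CN n), z.1 ∈ ch.s ∧ star z.2 ∈ ch.s ∧ ch.c z.1 ∈ O ∧
      ch.c z.1 ∈ W ∧ ch.c (star z.2) ∈ W ∧ fderiv ℂ (cpol ρ ch.c) z (0, star ν) ≠ 0 := by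
    have c1 := (hc1 (u, star u) hu).continuousAt
    have c2 : ContinuousAt (fun z : CN n × CN n => ch.c (star z.2)) (u, star u) :=
      ContinuousAt.comp (f := fun z : CN n × CN n => star z.2) (ch.an _ hu').continuousAt
        continuous_snd.star.continuousAt
    have hW' : W ∈ 𝓝 (ch.c (star (u, star u).2)) := by simpa using hW
    filter_upwards [continuous_fst.continuousAt.eventually (ch.s_open.mem_nhds hu),
      (continuous_snd.star.continuousAt (x := (u, star u))).eventually (ch.s_open.mem_nhds hu'),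
      c1.eventually (hO.mem_nhds ha0), c1.eventually hW, c2.eventually hW',
      (analyticAt_fderiv_apply hP (0, star ν)).continuousAt.eventually_ne he]
      with z a1 a2 a3 a4 a5 a6 using ⟨a1, a2, a3, a4, a5, a6⟩
  obtain ⟨Nb, hNG, hNb, haN⟩ := _root_.mem_nhds_iff.1 hG
  obtain ⟨z1, hz1, hPz1, hpos, T, hT, hw⟩ := wedge hP herm h0 hν hNb haN
  set S : Set (CN n × CN n) := {z | z ∈ Nb ∧ 0 < (cpol ρ ch.c (z.1, star z.1)).re} with hS
  set D : Set (CN N) := {x | x ∈ O ∩ F.V ∧ 0 < rv ρ x} with hD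
  have hSD : ∀ z ∈ S, ch.c z.1 ∈ D := fun z hz =>
    ⟨⟨(hNG hz.1).2.2.1, ch.maps (hNG hz.1).1⟩, hre z.1 ▸ hz.2⟩
  have hzero : ∀ l, ∀ z ∈ T, cpol ρ ch.c z = 0 →
      dx ρ (ch.c z.1) (star (ch.c (star z.2))) (Ξ l (ch.c z.1)) = 0 := by
    intro l
    refine hw (fun z => dx ρ (ch.c z.1) (star (ch.c (star z.2))) (Ξ l (ch.c z.1))) ?_ ?_
    · intro z hz
      obtain ⟨O', hO', hx, Φ, hΦ, hΦ'⟩ := hhol l _ (hSD z hz)
      have a1 := (hNG hz.1).1
      have a2 := (hNG hz.1).2.1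
      have d1 : DifferentiableAt ℂ (fun z : CN n × CN n => Φ (ch.c z.1)) z :=
        DifferentiableAt.comp (f := fun z : CN n × CN n => ch.c z.1) z
          (hΦ.differentiableAt (hO'.mem_nhds hx)) (hc1 z a1).differentiableAt
      have d2 : DifferentiableAt ℂ (fun z : CN n × CN n =>
          ∑ a, cpol (pderiv (Sum.inl a) ρ) ch.c z * Φ (ch.c z.1) a) z :=
        DifferentiableAt.fun_sum fun a _ => (han _ z a1 a2).differentiableAt.mul
          (differentiableAt_pi.1 d1 a)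
      have ev : ∀ᶠ z' in 𝓝[S] z, dx ρ (ch.c z'.1) (star (ch.c (star z'.2))) (Ξ l (ch.c z'.1)) =
          ∑ a, cpol (pderiv (Sum.inl a) ρ) ch.c z' * Φ (ch.c z'.1) a := by
        filter_upwards [self_mem_nhdsWithin,
          nhdsWithin_le_nhds ((hc1 z a1).continuousAt.eventually (hO'.mem_nhds hx))] with z' b1 b2
        rw [dx_eq_sum, hΦ' _ (hSD z' b1) b2]
        rfl
      exact d2.differentiableWithinAt.congr_of_eventuallyEq ev (ev.self_of_nhdsWithin hz)
    · intro b hb hPb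
      have a1 : b ∈ ch.s := (hNG hb).1
      have a2 := (hNG hb).2.1
      have hb0 : rv ρ (ch.c b) = 0 := by rw [← hre, hPb, Complex.zero_re]
      have t1 : Tendsto (fun z : CN n × CN n => ch.c z.1) (𝓝[S] (b, star b)) (𝓝[D] (ch.c b)) :=
        tendsto_nhdsWithin_iff.2 ⟨(hc1 (b, star b) a1).continuousAt.tendsto.mono_left
          nhdsWithin_le_nhds, eventually_mem_nhdsWithin.mono hSD⟩
      have t2 := (hlim l (ch.c b) ⟨(hNG hb).2.2.1, ch.maps a1⟩ hb0).comp t1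
      have t3 : Tendsto (fun z : CN n × CN n => ∑ a, (cpol (pderiv (Sum.inl a) ρ) ch.c z -
          cpol (pderiv (Sum.inl a) ρ) ch.c (b, star b)) * Ξ l (ch.c z.1) a) (𝓝[S] (b, star b))
          (𝓝 (∑ _a : Fin N, (0 : ℂ))) := by
        refine tendsto_finsetSum _ fun a _ => ?_
        refine Tendsto.zero_mul_isBoundedUnder_le ?_ ?_
        · exact tendsto_sub_nhds_zero_iff.2 ((han _ (b, star b) a1 a2).continuousAt.tendsto.mono_left
            nhdsWithin_le_nhds)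
        · refine isBoundedUnder_of_eventually_le (a := C) ?_
          filter_upwards [self_mem_nhdsWithin] with z hz
          exact (norm_le_pi_norm _ a).trans ((hbd _ (hSD z hz).1 (hSD z hz).2).1 l).1
      have t4 := t2.add t3
      simp only [Finset.sum_const_zero, add_zero] at t4
      refine t4.congr fun z => ?_
      simp only [Function.comp_apply, dx_eq_sum, cpol, star_star, ← Finset.sum_add_distrib]
      exact Finset.sum_congr rfl fun a _ => by ring
  have hz1S : z1 ∈ S := ⟨hz1, hpos⟩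
  obtain ⟨a1, a2, a3, a4, a5, a6⟩ := hNG hz1
  refine ⟨ch, hs, z1, a1, a2, a4, hsub (hSD z1 hz1S), a5, (hSD z1 hz1S).2, hPz1, ⟨_, a6⟩, ?_⟩
  have hc : ContinuousAt (fun z : CN n × CN n => rv ρ (ch.c z.1)) z1 :=
    (continuous_rv ρ).continuousAt.comp (hc1 z1 a1).continuousAt
  filter_upwards [hT, hNb.mem_nhds hz1, hc.eventually (lt_mem_nhds (hSD z1 hz1S).2)]
    with z b1 b2 b3 b4
  have hzS : z ∈ S := ⟨b2, (hre z.1).symm ▸ b3⟩
  have hm := (hbd _ (hSD z hzS).1 (hSD z hzS).2).2 (Submodule.mem_span_singleton_self _)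
  obtain ⟨lam, hlam⟩ := (Submodule.mem_span_range_iff_exists_fun ℂ).1 hm
  have e := dx_sum F ρ (fun i => c i (ch.c z.1)) (ch.c z.1) (star (ch.c (star z.2)))
  refine e.symm.trans ?_
  rw [← hlam]
  have := fun l => hzero l z b1 b4
  simp only [dx] at this ⊢
  simp [this]

end Crest.Agent.R264.P7
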