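import Crest.Agent.R264.P7.Eta0
import Crest.Agent.R264.P7.StepA

/-!
# Row 264, P7: existence of the algebraic field `η`
-/

set_option autoImplicit false
open Set Filter Topology Metric

noncomputable section
namespace Crest.Agent.R264.P7

open A MvPolynomial

theorem eventually_slice {X Y : Type*} [TopologicalSpace X] [TopologicalSpace Y] {u : X} {v : Y}
    {Φ : X × Y → Prop} (h : ∀ᶠ z in 𝓝 (u, v), Φ z) : ∀ᶠ w in 𝓝 v, ∀ᶠ u' in 𝓝 u, Φ (u', w) :=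
  ((continuous_swap.tendsto (v, u)).eventually h).curry_nhds

theorem exists_eta (M : TM) (F : AlgFrame M.n M.U) (c : Fin M.n → CN M.N → ℂ)
    (hc : ∀ i, Hol M.U (c i)) (hne : ∃ x ∈ M.U, ∃ i, c i x ≠ 0)
    (hfr : ∀ p ρ, F.GoodSide p ρ → ∀ W ∈ 𝓝 p, ∃ a0 ∈ W, F.GoodSide a0 ρ ∧
      TanFrame F ρ a0 (fun x => Submodule.span ℂ {∑ i, c i x • F.xi i x})) : Nonempty (Eta F) := by
  let β := {t : CN M.N × P2 M.N × Set (CN M.N) // F.GoodSide t.1 t.2.1 ∧ t.2.2 ∈ 𝓝 t.1}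
  have hA : ∀ b : β, ∃ ch : Chart M.n F.V, F.IsSect ch ∧ ∃ z1 : CN M.n × CN M.n, z1.1 ∈ ch.s ∧
      star z1.2 ∈ ch.s ∧ ch.c z1.1 ∈ b.1.2.2 ∧ ch.c z1.1 ∈ M.U ∧ ch.c (star z1.2) ∈ b.1.2.2 ∧
      0 < rv b.1.2.1 (ch.c z1.1) ∧ cpol b.1.2.1 ch.c z1 = 0 ∧
      (∃ e, fderiv ℂ (cpol b.1.2.1 ch.c) z1 (0, e) ≠ 0) ∧ ∀ᶠ z in 𝓝 z1, cpol b.1.2.1 ch.c z = 0 →
        ∑ i, c i (ch.c z.1) * cpol (hQ F b.1.2.1 i) ch.c z = 0 := by
    rintro ⟨⟨p, ρ, W⟩, hp, hW⟩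
    obtain ⟨a0, ha0, hg, hT⟩ := hfr p ρ hp _ (interior_mem_nhds.mpr hW)
    exact stepA hg hT (mem_interior_iff_mem_nhds.mp ha0)
  choose ch hs z1 h1 h2 h3 h4 h5 h6 h7 h8 h9 using hA
  choose e he using h8
  have hP : ∀ (b : β) (Q : P2 M.N), AnalyticAt ℂ (cpol Q (ch b).c) (z1 b) := fun b Q =>
    cpol_analyticAt Q ((ch b).an _ (h1 b)) ((ch b).an _ (h2 b))
  choose τ hτ hτ0 _ hτ1 hτ2 using fun b : β => exists_retr (hP b _) (h7 b) (he b)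
  let R : β → CN M.n × CN M.n → CN M.n × CN M.n := fun b z => (z.1, z.2 + τ b z • e b)
  have hR : ∀ b z, z + τ b z • ((0, e b) : CN M.n × CN M.n) = R b z := fun b z => by
    ext1 <;> simp [R]
  have hRa : ∀ b, AnalyticAt ℂ (R b) (z1 b) := fun b =>
    analyticAt_fst.prod (analyticAt_snd.add ((hτ b).smul analyticAt_const))
  have hR0 : ∀ b, R b (z1 b) = z1 b := fun b => by simp [R, hτ0]
  have hRt : ∀ b, Tendsto (R b) (𝓝 (z1 b)) (𝓝 (z1 b)) := fun b => by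
    simpa only [ContinuousAt, hR0] using (hRa b).continuousAt
  let Φ : β → CN M.n × CN M.n → Prop := fun b z => AnalyticAt ℂ (τ b) z ∧
    star (R b z).2 ∈ (ch b).s ∧ cpol b.1.2.1 (ch b).c (R b z) = 0 ∧
    fderiv ℂ (cpol b.1.2.1 (ch b).c) (R b z) (0, e b) ≠ 0 ∧
    ∑ i, c i ((ch b).c z.1) * cpol (hQ F b.1.2.1 i) (ch b).c (R b z) = 0
  have hΦ : ∀ b, ∀ᶠ z in 𝓝 (z1 b), Φ b z := by
    intro b
    have a1 : ∀ᶠ z in 𝓝 (z1 b), star z.2 ∈ (ch b).s :=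
      (continuous_star.comp continuous_snd).continuousAt.eventually ((ch b).s_open.mem_nhds (h2 b))
    have a2 : ∀ᶠ z in 𝓝 (z1 b), fderiv ℂ (cpol b.1.2.1 (ch b).c) z (0, e b) ≠ 0 :=
      (analyticAt_fderiv_apply (hP b _) _).continuousAt.eventually_ne (he b)
    filter_upwards [(hτ b).eventually_analyticAt, (hRt b).eventually a1, hτ1 b, (hRt b).eventually a2,
      (hRt b).eventually (h9 b)] with z b1 b2 b3 b4 b5
    rw [hR] at b3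
    exact ⟨b1, b2, b3, b4, b5 b3⟩
  let κ := {k : β × CN M.n // ∀ᶠ u in 𝓝 (z1 k.1).1, Φ k.1 (u, k.2)}
  have hτk : ∀ k : κ, AnalyticAt ℂ (fun u => τ k.1.1 (u, k.1.2)) (z1 k.1.1).1 := fun k =>
    AnalyticAt.comp (g := τ k.1.1) (f := fun u => (u, k.1.2)) k.2.self_of_nhds.1
      (analyticAt_id.prod analyticAt_const)
  obtain ⟨η, q, Δ, e1, e2, e3, e4, e5, e6, e7⟩ := exists_eta0 (κ := κ) (fun k => ch k.1.1)
    (fun k => hs _) (fun k => (z1 k.1.1).1) (fun k => h1 _) (fun k => h4 _)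
    (fun k i u => cpol (hQ F k.1.1.1.2.1 i) (ch k.1.1).c (R k.1.1 (u, k.1.2)))
    (fun k i => analyticAt_cpol_comp (ch k.1.1) analyticAt_id (hτk k) (h1 _) k.2.self_of_nhds.2.1 _)
    (fun k i => alg_coeff (hs _) (hτk k) (h1 _) k.2.self_of_nhds.2.1
      (k.2.mono fun u hu => hu.2.2.1) k.2.self_of_nhds.2.2.2.1 _)
    hc hne fun k => k.2.mono fun u hu => hu.2.2.2.2
  refine ⟨⟨η, q, Δ, e1, e2, e3, e4, e5, e6, fun p ρ hp W hW => ?_⟩⟩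
  let b : β := ⟨(p, ρ, W), hp, hW⟩
  refine ⟨_, h3 b, _, h5 b, (ch b).maps (h1 b), (ch b).maps (h2 b), h6 b, h7 b,
    rel_of_chart (hs b) (h1 b) (h2 b) ?_⟩
  have hH : AnalyticAt ℂ (fun z : CN M.n × CN M.n =>
      ∑ i, η i ((ch b).c z.1) * cpol (hQ F ρ i) (ch b).c (R b z)) (z1 b) := by
    refine Finset.analyticAt_fun_sum _ fun i _ => AnalyticAt.mul ?_ ?_
    · exact AnalyticAt.comp (g := fun t => η i ((ch b).c t)) (f := Prod.fst)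
        (analyticAt_hol_chart (ch b) (h1 b) (h4 b) (e1 i)) analyticAt_fst
    · exact AnalyticAt.comp (g := cpol (hQ F ρ i) (ch b).c) (f := R b)
        (by rw [hR0]; exact hP b _) (hRa b)
  have hz := slice_zero (u := (z1 b).1) (v := (z1 b).2) hH (by
    filter_upwards [eventually_slice (u := (z1 b).1) (v := (z1 b).2) (hΦ b)] with w hw
    exact e7 ⟨(b, w), hw⟩)
  filter_upwards [hz, hτ2 b] with z hz1 hz2 h0
  have : R b z = z := by simp [R, hz2 h0]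
  rwa [this] at hz1

end Crest.Agent.R264.P7
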