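import Crest.Agent.R264.A2

/-!
# Row 264, P7: analytic branches of algebraic functions
-/

set_option autoImplicit false
open Set Filter Topology Metric

noncomputable section
namespace Crest.Agent.R264.P7

open A

/-- `ψ i` is an analytic simple root of `q i` over the open set `B`. -/
structure Br {n : ℕ} (q : Fin n → Polynomial (Pl n)) (ψ : CN n → CN n) (B : Set (CN n)) : Prop where
  opn : IsOpen B
  an : AnalyticOnNhd ℂ ψ B
  uniq : ∀ t ∈ B, ∀ i, ∀ᶠ z in 𝓝 (t, ψ t i), ev2 (q i) z.1 z.2 = 0 → ψ z.1 i = z.2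

theorem Br.mono {n : ℕ} {q : Fin n → Polynomial (Pl n)} {ψ : CN n → CN n} {B B' : Set (CN n)}
    (h : Br q ψ B) (hB' : IsOpen B') (hs : B' ⊆ B) : Br q ψ B' :=
  ⟨hB', h.an.mono hs, fun t ht => h.uniq t (hs ht)⟩

/-- Hint: the roots are bounded (`A.root_bound`), take a cluster point `l` of `φ` along an
ultrafilter below `l`; `A.root_fun` for each `i`; `eventually_eventually_nhds`. -/
theorem exists_br {n : ℕ} {q : Fin n → Polynomial (Pl n)} (hq : ∀ i, (q i).Monic) {t0 : CN n}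
    (hs : ∀ i l, ev2 (q i) t0 l = 0 → ev2 (q i).derivative t0 l ≠ 0) {ι : Type*} {l : Filter ι}
    [l.NeBot] {t φ : ι → CN n} (ht : Tendsto t l (𝓝 t0))
    (hφ : ∀ᶠ j in l, ∀ i, ev2 (q i) (t j) (φ j i) = 0) :
    ∃ ψ B, Br q ψ B ∧ t0 ∈ B ∧ ∃ᶠ j in l, φ j = ψ (t j) := by
  choose C hC using fun i => root_bound (hq i) (‖t0‖ + 1)
  have hU : (Ultrafilter.of l : Filter ι) ≤ l := Ultrafilter.of_le l
  have hb : ∀ᶠ j in l, φ j ∈ Set.pi univ fun i => closedBall (0 : ℂ) (C i) := by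
    filter_upwards [hφ, ht.norm.eventually (ge_mem_nhds (lt_add_one ‖t0‖))] with j h1 h2 i _
    exact mem_closedBall_zero_iff.2 (hC i _ h2 _ (h1 i))
  obtain ⟨L, -, hL⟩ := IsCompact.ultrafilter_le_nhds
    (isCompact_univ_pi fun i => isCompact_closedBall (0 : ℂ) (C i))
    ((Ultrafilter.of l).map φ) (le_principal_iff.2 (hU hb))
  have hT : ∀ i, Tendsto (fun j => (t j, φ j i)) (Ultrafilter.of l) (𝓝 (t0, L i)) := fun i =>
    (ht.mono_left hU).prodMk_nhds (((continuous_apply i).tendsto L).comp hL)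
  have h0 : ∀ i, ev2 (q i) t0 (L i) = 0 := fun i =>
    tendsto_nhds_unique ((analyticAt_ev2 (q i) (t0, L i)).continuousAt.tendsto.comp (hT i))
      (tendsto_const_nhds.congr' ((hφ.filter_mono hU).mono fun j h => (h i).symm))
  choose ψ hψ hψ' using fun i => root_fun (h0 i) (hs i _ (h0 i))
  have ha : AnalyticAt ℂ (fun u i => ψ i u) t0 := analyticAt_pi_iff.2 hψ
  have hev : ∀ᶠ u in 𝓝 t0, AnalyticAt ℂ (fun u i => ψ i u) u ∧
      ∀ i, ∀ᶠ z in 𝓝 (u, ψ i u), ev2 (q i) z.1 z.2 = 0 → ψ i z.1 = z.2 := by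
    refine ha.eventually_analyticAt.and (eventually_all.2 fun i => ?_)
    have h1 : Tendsto (fun u => (u, ψ i u)) (𝓝 t0) (𝓝 (t0, L i)) := by
      rw [← show ψ i t0 = L i from (hψ' i).self_of_nhds.1 (h0 i)]
      exact tendsto_id.prodMk_nhds (hψ i).continuousAt
    exact h1.eventually ((hψ' i).mono fun z hz => hz.1).eventually_nhds
  obtain ⟨B, h1, h2, h3⟩ := _root_.eventually_nhds_iff.1 hev
  refine ⟨fun u i => ψ i u, B, ⟨h2, fun u hu => (h1 u hu).1, fun u hu => (h1 u hu).2⟩, h3,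
    Frequently.filter_mono (Eventually.frequently ?_) hU⟩
  filter_upwards [hφ.filter_mono hU, eventually_all.2 fun i => (hT i).eventually (hψ' i)]
    with j h4 h5
  exact funext fun i => ((h5 i).1 (h4 i)).symm

theorem Br.eventually_eq {n : ℕ} {q : Fin n → Polynomial (Pl n)} {ψ : CN n → CN n}
    {B : Set (CN n)} (h : Br q ψ B) {ι : Type*} {l : Filter ι} {t φ : ι → CN n} {t0 : CN n}
    (h0 : t0 ∈ B) (ht : Tendsto t l (𝓝 t0)) (hφ : Tendsto φ l (𝓝 (ψ t0)))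
    (hr : ∀ᶠ j in l, ∀ i, ev2 (q i) (t j) (φ j i) = 0) : ∀ᶠ j in l, φ j = ψ (t j) := by
  have hT : ∀ i, Tendsto (fun j => (t j, φ j i)) l (𝓝 (t0, ψ t0 i)) := fun i =>
    ht.prodMk_nhds (((continuous_apply i).tendsto _).comp hφ)
  filter_upwards [hr, eventually_all.2 fun i => (hT i).eventually (h.uniq t0 h0 i)] with j h4 h5
  exact funext fun i => (h5 i (h4 i)).symm

/-- Hint: `IsPreconnected.induction₂` with `P x y := (φ x = ψ (t x) ↔ φ y = ψ (t y))`. -/
theorem Br.eqOn {n : ℕ} {q : Fin n → Polynomial (Pl n)} {ψ : CN n → CN n} {B : Set (CN n)}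
    (h : Br q ψ B) {X : Type*} [TopologicalSpace X] {C : Set X} (hC : IsPreconnected C)
    {t φ : X → CN n} (ht : ContinuousOn t C) (hφ : ContinuousOn φ C) (hm : MapsTo t C B)
    (hr : ∀ x ∈ C, ∀ i, ev2 (q i) (t x) (φ x i) = 0) {x0 : X} (hx0 : x0 ∈ C)
    (h0 : φ x0 = ψ (t x0)) : ∀ x ∈ C, φ x = ψ (t x) := by
  intro x hx
  refine (hC.induction₂ (fun x y => (φ x = ψ (t x) ↔ φ y = ψ (t y))) (fun y hy => ?_)
    (fun _ _ _ _ _ _ => Iff.trans) (fun _ _ _ _ => Iff.symm) hx0 hx).1 h0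
  by_cases e : φ y = ψ (t y)
  · refine (h.eventually_eq (hm hy) (ht y hy) (e ▸ hφ y hy)
      (eventually_mem_nhdsWithin.mono hr)).mono fun z hz => iff_of_true e hz
  · have h1 : Tendsto (fun z => (φ z, ψ (t z))) (𝓝[C] y) (𝓝 (φ y, ψ (t y))) :=
      (hφ y hy).tendsto.prodMk_nhds ((h.an _ (hm hy)).continuousAt.tendsto.comp (ht y hy))
    exact (h1.eventually (isClosed_diagonal.isOpen_compl.mem_nhds e)).mono fun z hz =>
      iff_of_false e hz

end Crest.Agent.R264.P7
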