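import Crest.Agent.R264.P7.Remov0

/-!
# Row 264, P7: countable closed sets are removable
-/

set_option autoImplicit false
open Set Filter Topology Metric

noncomputable section
namespace Crest.Agent.R264.P7

/-- Discs with countably many punctures.  Hint: as in `A.taut_step` (R264/A6.lean):
`K2 = cthickening δ K ∩ V` is compact in `U`, `U ⊆ closedBall 0 R`.  For `ζ0 ∈ D`, `ball ζ0 (2a) ⊆ D`,
pick `w ∈ D \ Z` with `‖w - ζ0‖ < min a (a δ / (4 R))`, `g' (f w) ∈ K`; extend `g' ∘ f` by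
`removable_countable`; `SCV.norm_sub_le` on `ball w a` gives `f z ∈ g '' K2` for `z ∈ D \ Z` near
`ζ0`; let `z → ζ0`. -/
theorem maps_of_countable {N : ℕ} {O V U : Set (CN N)} (hO : IsOpen O) (hV : IsClosed V)
    (hU : U = O ∩ V) (hb : Bornology.IsBounded U) (hK : A.Cocpt U) {D Z : Set ℂ} (hD : IsOpen D)
    (hZ : Z.Countable) (hZc : IsOpen (D \ Z)) {f : ℂ → CN N} (hf : DifferentiableOn ℂ f D)
    (hm : MapsTo f (D \ Z) U) : MapsTo f D U := by
  obtain ⟨K, hK, hKU, hcov⟩ := hK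
  obtain ⟨δ, hδ, hδO⟩ := hK.exists_cthickening_subset_open hO (fun x hx => (hU ▸ hKU hx).1)
  obtain ⟨R, hR, hRU⟩ := hb.exists_pos_norm_le
  have hK2 : IsCompact (cthickening δ K ∩ V) := hK.cthickening.inter_right hV
  have hK2U : cthickening δ K ∩ V ⊆ U := fun x hx => hU ▸ ⟨hδO hx.1, hx.2⟩
  intro ζ hζ
  obtain ⟨b, hb0, hbD⟩ := Metric.isOpen_iff.mp hD ζ hζ
  set a := b / 2 with ha
  have ha0 : 0 < a := half_pos hb0
  set ε := min (a / 2) (a * δ / (4 * R)) with hε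
  have hε0 : 0 < ε := lt_min (half_pos ha0) (by positivity)
  have hε1 : ε ≤ a / 2 := min_le_left _ _
  have hε2 : ε ≤ a * δ / (4 * R) := min_le_right _ _
  have hcl := mem_closure_diff hD hZ hζ
  obtain ⟨w, hw, hwζ⟩ := Metric.mem_closure_iff.mp hcl ε hε0
  obtain ⟨g, g', hg, hgw⟩ := hcov (f w) (hm hw)
  obtain ⟨h, hh, hhe, hhR⟩ := removable_countable hD hZ hZc
    (A.hol_comp_differentiableOn hg.hol' hZc (hf.mono diff_subset) hm)
    (fun z hz => hRU _ (hg.maps' (hm hz)))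
  have hwD : ball w a ⊆ D := fun z hz => hbD (by
    rw [mem_ball] at hz ⊢
    linarith [dist_triangle z w ζ, dist_comm w ζ])
  have hK3 : IsCompact (g '' (cthickening δ K ∩ V)) :=
    hK2.image_of_continuousOn ((A.hol_continuousOn hg.hol).mono hK2U)
  have hK3U : g '' (cthickening δ K ∩ V) ⊆ U := by
    rintro _ ⟨y, hy, rfl⟩
    exact hg.maps (hK2U hy)
  refine hK3U ?_
  haveI : (𝓝[D \ Z] ζ).NeBot := mem_closure_iff_nhdsWithin_neBot.mp hcl
  refine hK3.isClosed.mem_of_tendsto (b := 𝓝[D \ Z] ζ)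
    ((hf.continuousOn ζ hζ).mono diff_subset) ?_
  filter_upwards [self_mem_nhdsWithin, mem_nhdsWithin_of_mem_nhds (ball_mem_nhds ζ hε0)]
    with z hz hzζ
  rw [mem_ball] at hzζ
  have hzw : dist z w < 2 * ε := by linarith [dist_triangle z ζ w]
  have hz1 : z ∈ ball w a := by
    rw [mem_ball]
    linarith
  have h2 := SCV.norm_sub_le (hh.mono hwD) (fun y hy => hhR y (hwD hy)) hz1
  rw [hhe hz, hhe hw] at h2
  refine ⟨g' (f z), ⟨mem_cthickening_of_dist_le _ _ _ _ hgw ?_, (hU ▸ hg.maps' (hm hz)).2⟩,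
    hg.right _ (hm hz)⟩
  rw [dist_eq_norm]
  refine h2.trans ?_
  rw [← dist_eq_norm]
  calc 2 * R / a * dist z w ≤ 2 * R / a * (2 * (a * δ / (4 * R))) := by
        gcongr
        linarith
    _ = δ := by field_simp; ring

end Crest.Agent.R264.P7
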