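import Crest.Agent.R264.P7.Tan
import Crest.Agent.R264.P7.Remov
import Crest.Agent.R264.Aut
import Crest.Agent.R264.G

/-!
# Row 264, P7: leaves with countably many bad points lie in `U`
-/

set_option autoImplicit false
open Set Filter Topology Metric

noncomputable section
namespace Crest.Agent.R264.P7

open A MvPolynomial

theorem cocpt (S : TMG) : Cocpt S.U := by
  refine ⟨S.K, S.K_compact, S.K_sub, fun x hx => ?_⟩
  obtain ⟨γ, -, y, hy, rfl⟩ := S.cover x hx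
  refine ⟨S.toTM.ap γ, S.toTM.ap γ⁻¹, ⟨S.toTM.hol_ap _, S.toTM.hol_ap _,
    fun _ h => S.toTM.ap_mem _ h, fun _ h => S.toTM.ap_mem _ h, fun _ h => S.toTM.ap_inv_ap _ h,
    fun _ h => S.toTM.ap_ap_inv _ h⟩, ?_⟩
  rw [S.toTM.ap_inv_ap _ (S.K_sub hy)]
  exact hy

/-- The bad set is closed off the discriminant (`eventually_mem_U`, `gd_open`). -/
theorem eventually_not_bad {N n : ℕ} {U : Set (CN N)} (F : AlgFrame n U) {x : CN N}
    (hd : F.dv x ≠ 0) (hx : x ∉ F.Bad) : ∀ᶠ y in 𝓝 x, y ∉ F.Bad := by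
  by_cases h1 : x ∈ closure U
  · by_cases h2 : x ∈ U
    · filter_upwards [F.eventually_mem_U h2] with y hy hb
      exact hb.2.1 (hy (F.closure_subset hb.1))
    · have h3 : x ∈ F.Gd := by
        by_contra h3
        exact hx ⟨h1, h2, hd, h3⟩
      filter_upwards [AlgFrame.gd_open h3] with y hy hb
      exact hb.2.2.2 (hy hb.1 hb.2.1)
  · filter_upwards [isClosed_closure.isOpen_compl.mem_nhds h1] with y hy hb
    exact hy hb.1

/-- Hint: `Z = {ζ ∈ ball | ch.c (f ζ) ∈ Bad}` is countable, `ball \ Z` is open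
(`eventually_not_bad`) and preconnected (`isPreconnected_ball_diff`).  The property
`A ζ := ch.c (f ζ) ∈ U ∧ η = ψ` is locally constant on `ball \ Z` (`Br.eventually_eq`; if `A` holds
frequently near `ζ` then the point is in `closure U`; if it is in `U` use continuity, otherwise it
is good, against `not_good`), `IsPreconnected.induction₂`; finally `maps_of_countable`, `cocpt`. -/
theorem leaf_mem (S : Setup) (e : Eta S.F) {ch : Chart S.n S.F.V} (hs : S.F.IsSect ch)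
    {ψ : CN S.n → CN S.n} {B : Set (CN S.n)} (hB : Br e.q ψ B) (hBs : B ⊆ ch.s) {f : ℂ → CN S.n}
    {ε : ℝ} (hf : ∀ ζ ∈ ball (0 : ℂ) ε, f ζ ∈ B ∧ HasDerivAt f (e.Y ψ (f ζ)) ζ)
    (hc : {ζ | ζ ∈ ball (0 : ℂ) ε ∧ f ζ ∈ S.F.pr '' S.F.Bad}.Countable) {ζ1 : ℂ}
    (h1 : ζ1 ∈ ball (0 : ℂ) ε) (hU : ch.c (f ζ1) ∈ S.U)
    (hη : ∀ i, e.η i (ch.c (f ζ1)) = ψ (f ζ1) i) : ∀ ζ ∈ ball (0 : ℂ) ε, ch.c (f ζ) ∈ S.U := by
  set Z : Set ℂ := {ζ | ζ ∈ ball (0 : ℂ) ε ∧ ch.c (f ζ) ∈ S.F.Bad} with hZ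
  have hZc : Z.Countable := by
    refine hc.mono fun ζ hζ => ?_
    exact ⟨hζ.1, _, hζ.2, (hs.pr_c (hBs (hf ζ hζ.1).1)).1⟩
  have hd : ∀ ζ ∈ ball (0 : ℂ) ε, DifferentiableAt ℂ (fun ζ => ch.c (f ζ)) ζ := fun ζ hζ =>
    (ch.an _ (hBs (hf ζ hζ).1)).differentiableAt.comp ζ (hf ζ hζ).2.differentiableAt
  have hZo : IsOpen (ball (0 : ℂ) ε \ Z) := by
    refine isOpen_iff_mem_nhds.2 fun ζ hζ => ?_
    filter_upwards [isOpen_ball.mem_nhds hζ.1, (hd ζ hζ.1).continuousAt.eventually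
      (eventually_not_bad S.F (hs.pr_c (hBs (hf ζ hζ.1).1)).2 fun h => hζ.2 ⟨hζ.1, h⟩)]
      with w h1 h2
    exact ⟨h1, fun h => h2 h.2⟩
  set Q : ℂ → Prop := fun ζ => ch.c (f ζ) ∈ S.U ∧ ∀ i, e.η i (ch.c (f ζ)) = ψ (f ζ) i with hQ
  -- behaviour near a point that is mapped into `U`
  have hin : ∀ ζ ∈ ball (0 : ℂ) ε, ch.c (f ζ) ∈ S.U → (∀ᶠ w in 𝓝 ζ, ch.c (f w) ∈ S.U) ∧
      Tendsto (fun w i => e.η i (ch.c (f w))) (𝓝 ζ) (𝓝 fun i => e.η i (ch.c (f ζ))) := by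
    intro ζ hζ hU
    have h2 : ∀ᶠ w in 𝓝 ζ, ch.c (f w) ∈ S.U := by
      filter_upwards [isOpen_ball.mem_nhds hζ,
        (hd ζ hζ).continuousAt.eventually (S.F.eventually_mem_U hU)] with w h1 h2
      exact h2 (ch.maps (hBs (hf w h1).1))
    refine ⟨h2, tendsto_pi_nhds.2 fun i => ?_⟩
    exact (hol_continuousOn (e.hol i) _ hU).tendsto.comp
      (tendsto_nhdsWithin_iff.2 ⟨(hd ζ hζ).continuousAt, h2⟩)
  have hopen : ∀ ζ ∈ ball (0 : ℂ) ε, Q ζ → ∀ᶠ w in 𝓝 ζ, Q w := by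
    intro ζ hζ h
    obtain ⟨h2, h3⟩ := hin ζ hζ h.1
    rw [show (fun i => e.η i (ch.c (f ζ))) = ψ (f ζ) from funext h.2] at h3
    have h4 := hB.eventually_eq (hf ζ hζ).1 (hf ζ hζ).2.continuousAt h3 (by
      filter_upwards [isOpen_ball.mem_nhds hζ, h2] with w h5 h6 i
      have := e.root _ h6 i
      rwa [(hs.pr_c (hBs (hf w h5).1)).1] at this)
    filter_upwards [h2, h4] with w h5 h6
    exact ⟨h5, fun i => congrFun h6 i⟩
  have hclosed : ∀ ζ ∈ ball (0 : ℂ) ε \ Z, (∃ᶠ w in 𝓝 ζ, Q w) → Q ζ := by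
    intro ζ hζ h
    by_cases hU : ch.c (f ζ) ∈ S.U
    · refine ⟨hU, fun i => ?_⟩
      have h3 := tendsto_pi_nhds.1 (hin ζ hζ.1 hU).2 i
      have h4 := tendsto_pi_nhds.1
        ((hB.an _ (hf ζ hζ.1).1).continuousAt.tendsto.comp (hf ζ hζ.1).2.continuousAt) i
      exact tendsto_nhds_unique_of_frequently_eq h3 h4 (h.mono fun w hw => hw.2 i)
    · exfalso
      refine hζ.2 ⟨hζ.1, mem_closure_of_frequently_of_tendsto (h.mono fun w hw => hw.1)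
        (hd ζ hζ.1).continuousAt, hU, (hs.pr_c (hBs (hf ζ hζ.1).1)).2, ?_⟩
      exact e.not_good hs hB hBs ((isOpen_ball.eventually_mem hζ.1).mono fun w hw => (hf w hw).2)
        (hf ζ hζ.1).1 h
  have h1Z : ζ1 ∈ ball (0 : ℂ) ε \ Z := ⟨h1, fun h => h.2.2.1 hU⟩
  have hall : ∀ ζ ∈ ball (0 : ℂ) ε \ Z, Q ζ := by
    intro ζ hζ
    refine ((isPreconnected_ball_diff 0 ε hZc).induction₂ (fun x y => (Q x ↔ Q y))
      (fun y hy => ?_) (fun _ _ _ _ _ _ => Iff.trans) (fun _ _ _ _ => Iff.symm) h1Z hζ).1 ⟨hU, hη⟩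
    refine nhdsWithin_le_nhds ?_
    by_cases h : Q y
    · exact (hopen y hy.1 h).mono fun z hz => iff_of_true h hz
    · exact (not_frequently.1 fun h' => h (hclosed y hy h')).mono fun z hz => iff_of_false h hz
  obtain ⟨O, hO, hOU⟩ := S.F.isOpen
  exact maps_of_countable hO S.F.isClosed_V hOU S.bdd (cocpt S.toTMG) isOpen_ball hZc hZo
    (fun ζ hζ => (hd ζ hζ).differentiableWithinAt) fun ζ hζ => (hall ζ hζ).1

end Crest.Agent.R264.P7
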