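import Crest.Agent.R264.P3.Sect
import Crest.Agent.R264.P7Def
import Crest.Agent.R264.A2

/-!
# Row 264, P7: the algebraic field `η` (definitions)
-/

set_option autoImplicit false
open Set Filter Topology Metric

noncomputable section
namespace Crest.Agent.R264.P7

open A MvPolynomial

variable {N n : ℕ} {U : Set (CN N)}

/-- The polynomial `dx ρ x y (ξ i x)`. -/
def hQ (F : AlgFrame n U) (ρ : P2 N) (i : Fin n) : P2 N :=
  ∑ a, pderiv (Sum.inl a) ρ * rename Sum.inl (F.ξ i a)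

theorem dx_eq_sum (ρ : P2 N) (x y v : CN N) :
    dx ρ x y v = ∑ a, pe (pderiv (Sum.inl a) ρ) x y * v a := by
  rw [dx_eq_fderiv, fderiv_pe]
  simp

theorem pe_hQ (F : AlgFrame n U) (ρ : P2 N) (i : Fin n) (x y : CN N) :
    pe (hQ F ρ i) x y = dx ρ x y (F.xi i x) := by
  rw [dx_eq_sum]
  simp only [hQ, pe, map_sum, map_mul, eval_rename, AlgFrame.xi]
  rfl

theorem dx_sum (F : AlgFrame n U) (ρ : P2 N) (c : Fin n → ℂ) (x y : CN N) :
    dx ρ x y (∑ i, c i • F.xi i x) = ∑ i, c i * pe (hQ F ρ i) x y := by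
  simp only [pe_hQ, dx, map_sum, map_smul, smul_eq_mul]

theorem noe (F : AlgFrame n U) : Noe F.I n F.π := by
  refine ⟨F.prime, F.indep, fun f => ?_⟩
  letI := alg F.I F.π
  have key : IsIntegral (Pl n) (Ideal.Quotient.mk F.I f) := by
    induction f using MvPolynomial.induction_on with
    | C c =>
      have : Ideal.Quotient.mk F.I (C c) = algebraMap (Pl n) (Pl N ⧸ F.I) (C c) := by
        change _ = Ideal.Quotient.mk F.I (aeval F.π (C c))
        simp
      rw [this]; exact isIntegral_algebraMap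
    | add a b ha hb => rw [map_add]; exact ha.add hb
    | mul_X a i ha =>
      rw [map_mul]
      refine ha.mul ?_
      obtain ⟨q, hq, h⟩ := F.integral i
      refine ⟨q, hq, ?_⟩
      rw [← Polynomial.aeval_def, aeval_mk, Ideal.Quotient.eq_zero_iff_mem]
      exact h
  obtain ⟨q, hq, h⟩ := key
  refine ⟨q, hq, ?_⟩
  rw [← Ideal.Quotient.eq_zero_iff_mem, ← aeval_mk, Polynomial.aeval_def]
  exact h

/-- The field `∑ η i • ξ i` is tangent to the complexified hypersurface near `(x1, star y1)`. -/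
def Rel (F : AlgFrame n U) (η : Fin n → CN N → ℂ) (ρ : P2 N) (x1 y1 : CN N) : Prop :=
  ∀ᶠ z in 𝓝[F.V ×ˢ F.V] (x1, y1), pe ρ z.1 (star z.2) = 0 →
    ∑ i, η i z.1 * pe (hQ F ρ i) z.1 (star z.2) = 0

/-- An algebraic field that is complex tangent to all good sides. -/
structure Eta (F : AlgFrame n U) where
  η : Fin n → CN N → ℂ
  q : Fin n → Polynomial (Pl n)
  Δ : Pl n
  hol : ∀ i, Hol U (η i)
  ne : ∃ x ∈ U, eval (F.pr x) Δ ≠ 0 ∧ ∃ i, η i x ≠ 0
  monic : ∀ i, (q i).Monic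
  root : ∀ x ∈ U, ∀ i, ev2 (q i) (F.pr x) (η i x) = 0
  dv : ∀ t, eval t Δ ≠ 0 → eval t F.D ≠ 0
  simple : ∀ t, eval t Δ ≠ 0 → ∀ i l, ev2 (q i) t l = 0 → ev2 (q i).derivative t l ≠ 0
  rel : ∀ p ρ, F.GoodSide p ρ → ∀ W ∈ 𝓝 p, ∃ x1 ∈ W, ∃ y1 ∈ W, x1 ∈ F.V ∧ y1 ∈ F.V ∧
    0 < rv ρ x1 ∧ pe ρ x1 (star y1) = 0 ∧ Rel F η ρ x1 y1

/-- The vector field on `U`. -/
def Eta.X {F : AlgFrame n U} (e : Eta F) : CN N → CN N :=
  U.indicator fun x => ∑ i, (eval (F.pr x) e.Δ * e.η i x) • F.xi i x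

/-- The vector field in the coordinates `π`, for a branch `ψ`. -/
def Eta.Y {F : AlgFrame n U} (e : Eta F) (ψ : CN n → CN n) (u : CN n) : CN n :=
  (eval u e.Δ * eval u F.D) • ψ u

end Crest.Agent.R264.P7
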