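import Mathlib

/-!
# Row 264, P7: linear systems with algebraic coefficients have algebraic solutions
-/

set_option autoImplicit false

noncomputable section
namespace Crest.Agent.R264.P7

open Polynomial

/-- A vector of minimal support. -/
theorem exists_min_support {Ω : Type} [Field Ω] {n : ℕ} (S : Submodule Ω (Fin n → Ω))
    (hS : S ≠ ⊥) : ∃ w ∈ S, ∃ i0, w i0 = 1 ∧
      ∀ w' ∈ S, w' i0 = 1 → (∀ i, w i = 0 → w' i = 0) → w' = w := by
  classical
  obtain ⟨w0, hw0, hw0'⟩ := Submodule.exists_mem_ne_zero_of_ne_bot hS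
  obtain ⟨w, ⟨hw, hw'⟩, hmin⟩ := (InvImage.wf (fun w : Fin n → Ω =>
    (Finset.univ.filter fun i => w i ≠ 0).card) Nat.lt_wfRel.wf).has_min {w | w ∈ S ∧ w ≠ 0}
    ⟨w0, hw0, hw0'⟩
  obtain ⟨i0, hi0⟩ := Function.ne_iff.mp hw'
  have hi0' : w i0 ≠ 0 := hi0
  refine ⟨(w i0)⁻¹ • w, S.smul_mem _ hw, i0, by simp [hi0'], fun w' h1 h2 h3 => ?_⟩
  by_contra hne
  refine hmin (w' - (w i0)⁻¹ • w) ⟨S.sub_mem h1 (S.smul_mem _ hw), sub_ne_zero.mpr hne⟩ ?_
  apply Finset.card_lt_card
  refine ⟨fun i hi => ?_, fun hsub => ?_⟩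
  · simp only [Finset.mem_filter, Finset.mem_univ, true_and] at hi ⊢
    intro h0
    apply hi
    have : ((w i0)⁻¹ • w) i = 0 := by simp [h0]
    rw [Pi.sub_apply, h3 i this, this, sub_zero]
  · have := hsub (Finset.mem_filter.mpr ⟨Finset.mem_univ i0, hi0'⟩)
    simp [h2, hi0'] at this

theorem exists_alg_sol_field {k K : Type} [Field k] [Field K] [Algebra k K] [CharZero K] {n : ℕ}
    {κ : Type} (L : κ → Type) [∀ j, Field (L j)] [∀ j, Algebra K (L j)] [∀ j, Algebra k (L j)]
    [∀ j, IsScalarTower k K (L j)] (a : ∀ j, Fin n → L j) (ha : ∀ j i, IsAlgebraic k (a j i))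
    (c : Fin n → K) (hc : c ≠ 0) (h : ∀ j, ∑ i, algebraMap K (L j) (c i) * a j i = 0) :
    ∃ w : Fin n → K, w ≠ 0 ∧ (∀ i, IsAlgebraic k (w i)) ∧
      ∀ j, ∑ i, algebraMap K (L j) (w i) * a j i = 0 := by
  let Ω := AlgebraicClosure K
  have hmem : ∀ j i, a j i ∈ algebraicClosure K (L j) := fun j i =>
    mem_algebraicClosure_iff.mpr ((ha j i).tower_top K)
  let ι : ∀ j, algebraicClosure K (L j) →ₐ[K] Ω := fun j => IsAlgClosed.lift
  let b : κ → Fin n → Ω := fun j i => ι j ⟨a j i, hmem j i⟩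
  have hb : ∀ j (w : Fin n → K), ∑ i, algebraMap K (L j) (w i) * a j i = 0 ↔
      ∑ i, algebraMap K Ω (w i) * b j i = 0 := by
    intro j w
    have h1 : ∑ i, algebraMap K Ω (w i) * b j i =
        ι j (∑ i, algebraMap K _ (w i) * ⟨a j i, hmem j i⟩) := by
      simp only [map_sum, map_mul, AlgHom.commutes, b]
    rw [h1, map_eq_zero_iff (ι j) (ι j).injective, ← Subtype.coe_inj]
    simp
  have hbalg : ∀ j i, IsAlgebraic k (b j i) := by
    intro j i
    have : IsAlgebraic k (⟨a j i, hmem j i⟩ : algebraicClosure K (L j)) :=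
      (isAlgebraic_algHom_iff ((algebraicClosure K (L j)).val.restrictScalars k)
        Subtype.val_injective).mp (ha j i)
    exact this.algHom ((ι j).restrictScalars k)
  let S : Submodule Ω (Fin n → Ω) :=
    { carrier := {w | ∀ j (τ : Gal(Ω/K)), ∑ i, w i * τ (b j i) = 0}
      add_mem' := fun {u v} hu hv j τ => by
        simp only [Pi.add_apply, add_mul, Finset.sum_add_distrib, hu j τ, hv j τ, add_zero]
      zero_mem' := fun j τ => by simp
      smul_mem' := fun t u hu j τ => by
        simp only [Pi.smul_apply, smul_eq_mul, mul_assoc, ← Finset.mul_sum, hu j τ, mul_zero] }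
  have hS : S ≠ ⊥ := by
    intro h0
    have : (fun i => algebraMap K Ω (c i)) ∈ S := fun j τ => by
      have := congrArg τ ((hb j c).mp (h j))
      simpa only [map_sum, map_mul, AlgEquiv.commutes, map_zero] using this
    rw [h0, Submodule.mem_bot] at this
    exact hc (funext fun i => (algebraMap K Ω).injective (by simpa using congrFun this i))
  obtain ⟨w, hw, i0, hi0, hmin⟩ := exists_min_support S hS
  have h1 : ∀ i, w i ∈ Set.range (algebraMap K Ω) := by
    intro i
    rw [InfiniteGalois.mem_range_algebraMap_iff_fixed]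
    intro σ
    refine congrFun (hmin (fun i => σ (w i)) (fun j τ => ?_) (by simp [hi0]) fun i hi => by simp [hi]) i
    have := congrArg σ (hw j (σ⁻¹ * τ))
    simpa only [map_sum, map_mul, map_zero, AlgEquiv.mul_apply, ← AlgEquiv.mul_apply σ, mul_inv_cancel,
      AlgEquiv.one_apply] using this
  have h2 : ∀ i, IsAlgebraic k (w i) := by
    obtain ⟨φ, hφ⟩ := (Algebra.linearMap (algebraicClosure k Ω) Ω).exists_leftInverse_of_injective
      (LinearMap.ker_eq_bot.mpr Subtype.val_injective)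
    have hφ1 : φ 1 = 1 := by simpa using LinearMap.congr_fun hφ 1
    have := hmin (fun i => (φ (w i) : Ω)) (fun j τ => ?_) (by simp [hi0, hφ1]) fun i hi => by simp [hi]
    · intro i
      rw [← congrFun this i]
      exact mem_algebraicClosure_iff.mp (φ (w i)).2
    · have hm : ∀ i, τ (b j i) ∈ algebraicClosure k Ω := fun i =>
        mem_algebraicClosure_iff.mpr ((hbalg j i).algHom ((τ : Ω →ₐ[K] Ω).restrictScalars k))
      have h3 := congrArg φ (hw j τ)
      have h4 : ∀ i, φ (w i * τ (b j i)) = φ (w i) * ⟨τ (b j i), hm i⟩ := fun i => by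
        have := φ.map_smul ⟨τ (b j i), hm i⟩ (w i)
        rw [smul_eq_mul, mul_comm] at this
        rw [← this, mul_comm (w i)]
        rfl
      simp only [map_sum, h4, map_zero] at h3
      simpa using congrArg Subtype.val h3
  choose v hv using h1
  refine ⟨v, fun h0 => ?_, fun i => ?_, fun j => (hb j v).mpr ?_⟩
  · have := hv i0
    rw [h0, hi0] at this
    simp at this
  · exact (isAlgebraic_algebraMap_iff (algebraMap K Ω).injective).mp (hv i ▸ h2 i)
  · simpa only [hv, AlgEquiv.one_apply] using hw j 1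

theorem exists_alg_sol {A R : Type} [CommRing A] [IsDomain A] [CommRing R] [IsDomain R]
    [CharZero R] (φ : A →+* R) (hφ : Function.Injective φ) {n : ℕ} {κ : Type} (T : κ → Type)
    [∀ j, CommRing (T j)] [∀ j, IsDomain (T j)] (ψ : ∀ j, R →+* T j)
    (hψ : ∀ j, Function.Injective (ψ j)) (a : ∀ j, Fin n → T j)
    (ha : ∀ j i, ∃ q : A[X], q ≠ 0 ∧ q.eval₂ ((ψ j).comp φ) (a j i) = 0)
    (c : Fin n → R) (hc : c ≠ 0) (h : ∀ j, ∑ i, ψ j (c i) * a j i = 0) :
    ∃ (g : Fin n → R) (d : R), d ≠ 0 ∧ g ≠ 0 ∧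
      (∀ i, ∃ q : A[X], q.Monic ∧ ((q.map φ).scaleRoots d).eval (g i) = 0) ∧
      ∀ j, ∑ i, ψ j (g i) * a j i = 0 := by
  classical
  let k := FractionRing A
  let K := FractionRing R
  let L : κ → Type := fun j => FractionRing (T j)
  have hRK := IsFractionRing.injective R K
  have hTL := fun j => IsFractionRing.injective (T j) (L j)
  haveI : CharZero K := charZero_of_injective_algebraMap hRK
  let f : k →+* K := IsFractionRing.lift (g := (algebraMap R K).comp φ) (hRK.comp hφ)
  let f' : ∀ j, K →+* L j := fun j =>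
    IsFractionRing.lift (g := (algebraMap (T j) (L j)).comp (ψ j)) ((hTL j).comp (hψ j))
  have hf : ∀ x, f (algebraMap A k x) = algebraMap R K (φ x) := fun x => IsFractionRing.lift_algebraMap _ _
  have hf' : ∀ j x, f' j (algebraMap R K x) = algebraMap (T j) (L j) (ψ j x) := fun j x =>
    IsFractionRing.lift_algebraMap _ _
  letI : Algebra k K := f.toAlgebra
  letI : ∀ j, Algebra K (L j) := fun j => (f' j).toAlgebra
  letI : ∀ j, Algebra k (L j) := fun j => ((f' j).comp f).toAlgebra
  haveI : ∀ j, IsScalarTower k K (L j) := fun j => IsScalarTower.of_algebraMap_eq' rfl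
  obtain ⟨w, hw0, hw1, hw2⟩ := exists_alg_sol_field (k := k) (K := K) L
    (fun j i => algebraMap (T j) (L j) (a j i)) (fun j i => by
      obtain ⟨q, hq, hq'⟩ := ha j i
      refine ⟨q.map (algebraMap A k), (Polynomial.map_ne_zero_iff (IsFractionRing.injective A k)).mpr hq, ?_⟩
      have := congrArg (algebraMap (T j) (L j)) hq'
      rw [hom_eval₂, map_zero] at this
      rw [aeval_def, eval₂_map, ← this]
      congr 1
      exact RingHom.ext fun x => by
        change f' j (f (algebraMap A k x)) = _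
        rw [hf, hf']; rfl)
    (fun i => algebraMap R K (c i)) (fun h0 => hc (funext fun i => hRK (by simpa using congrFun h0 i)))
    (fun j => by
      have := congrArg (algebraMap (T j) (L j)) (h j)
      simp only [map_sum, map_mul, map_zero, ← hf'] at this
      exact this)
  letI : Algebra A K := ((algebraMap R K).comp φ).toAlgebra
  haveI : IsScalarTower A k K := IsScalarTower.of_algebraMap_eq fun x => (hf x).symm
  choose y hy0 hy using fun i => ((IsFractionRing.isAlgebraic_iff A k K).mpr (hw1 i)).exists_integral_multiple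
  have hint : ∀ i, IsIntegral A ((∏ i, y i) • w i) := fun i => by
    rw [← Finset.prod_erase_mul _ _ (Finset.mem_univ i), mul_smul]
    exact (hy i).smul _
  obtain ⟨d, hd⟩ := IsLocalization.exist_integer_multiples_of_finite (nonZeroDivisors R)
    fun i => (∏ i, y i) • w i
  choose g hg using hd
  have hd0 : (d : R) ≠ 0 := nonZeroDivisors.ne_zero d.2
  have hd0' : algebraMap R K d ≠ 0 := (map_ne_zero_iff _ hRK).mpr hd0
  have hy0' : algebraMap A K (∏ i, y i) ≠ 0 :=
    (map_ne_zero_iff ((algebraMap R K).comp φ) (hRK.comp hφ)).mpr (Finset.prod_ne_zero_iff.mpr fun i _ => hy0 i)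
  have hg' : ∀ i, algebraMap R K (g i) = algebraMap R K d * (algebraMap A K (∏ i, y i) * w i) :=
    fun i => by rw [hg, Algebra.smul_def, Algebra.smul_def]
  refine ⟨g, d, hd0, fun h0 => hw0 (funext fun i => ?_), fun i => ?_, fun j => hTL j ?_⟩
  · have := hg' i
    rw [h0, Pi.zero_apply, map_zero] at this
    exact (mul_eq_zero.mp ((mul_eq_zero.mp this.symm).resolve_left hd0')).resolve_left hy0'
  · obtain ⟨q, hq, hq'⟩ := hint i
    refine ⟨q, hq, hRK ?_⟩
    rw [← eval₂_hom, hg', scaleRoots_eval₂_mul, eval₂_map, ← Algebra.smul_def, map_zero]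
    exact mul_eq_zero_of_right _ hq'
  · simp only [map_sum, map_mul, map_zero, ← hf', hg', mul_assoc, ← Finset.mul_sum]
    exact mul_eq_zero_of_right _ (mul_eq_zero_of_right _ (hw2 j))

/-- Discriminants. -/
theorem exists_disc {A R : Type} [CommRing A] [IsDomain A] [IsIntegrallyClosed A] [CharZero A]
    [CommRing R] [IsDomain R] (φ : A →+* R) (hφ : Function.Injective φ) {r : R} {q0 : A[X]}
    (hq0 : q0.Monic) (h0 : q0.eval₂ φ r = 0) :
    ∃ (q u v : A[X]) (Δ : A), q.Monic ∧ q.eval₂ φ r = 0 ∧ Δ ≠ 0 ∧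
      u * q + v * derivative q = C Δ := by
  letI := φ.toAlgebra
  haveI : Module.IsTorsionFree A R := Module.isTorsionFree_iff_algebraMap_injective.mpr hφ
  have hi : IsIntegral A r := ⟨q0, hq0, h0⟩
  set q := minpoly A r with hq
  have hm : q.Monic := minpoly.monic hi
  have hp : Prime q := minpoly.prime_of_isIntegrallyClosed hi
  haveI := AdjoinRoot.isDomain_of_prime hp
  haveI : Module.Finite A (AdjoinRoot q) := hm.finite_adjoinRoot
  have hd : AdjoinRoot.mk q (derivative q) ≠ 0 := by
    rw [Ne, AdjoinRoot.mk_eq_zero]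
    intro hdvd
    have h1 : q.natDegree ≠ 0 := (minpoly.natDegree_pos hi).ne'
    exact h1 (natDegree_eq_zero_of_derivative_eq_zero
      (eq_zero_of_dvd_of_natDegree_lt hdvd (natDegree_derivative_lt h1)))
  have := Ideal.comap_ne_bot_of_integral_mem (R := A) (I := Ideal.span {AdjoinRoot.mk q (derivative q)})
    hd (Ideal.mem_span_singleton_self _) (Algebra.IsIntegral.isIntegral _)
  obtain ⟨Δ, hΔ, hΔ0⟩ := Submodule.exists_mem_ne_zero_of_ne_bot this
  rw [Ideal.mem_comap, Ideal.mem_span_singleton] at hΔ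
  obtain ⟨b, hb⟩ := hΔ
  obtain ⟨v, rfl⟩ := AdjoinRoot.mk_surjective b
  rw [AdjoinRoot.algebraMap_eq, ← AdjoinRoot.mk_C, ← map_mul, AdjoinRoot.mk_eq_mk] at hb
  obtain ⟨u, hu⟩ := hb
  exact ⟨q, u, v, Δ, hm, minpoly.aeval A r, hΔ0, by linear_combination -hu⟩

end Crest.Agent.R264.P7
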