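import Crest.Agent.R264.P7.Germ
import Crest.Agent.R264.P7.Galois
import Crest.Agent.R264.A5

/-!
# Row 264, P7: an algebraic solution of the tangency relations
-/

set_option autoImplicit false
open Set Filter Topology Metric

noncomputable section
namespace Crest.Agent.R264.P7

open A MvPolynomial

variable (M : TM)

/-- holomorphic functions on `U` -/
def HolU : Subring (CN M.N → ℂ) where
  carrier := {f | Hol M.U f}
  mul_mem' hf hg := Hol.mul hf hg
  one_mem' := Hol.const _ _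
  add_mem' hf hg := Hol.add hf hg
  zero_mem' := Hol.zero _
  neg_mem' hf := Hol.neg hf

/-- functions vanishing on `U` -/
def nulU : Ideal (HolU M) where
  carrier := {f | ∀ x ∈ M.U, (f : CN M.N → ℂ) x = 0}
  add_mem' {f g} hf hg x hx := by simp [hf x hx, hg x hx]
  zero_mem' _ _ := rfl
  smul_mem' c f hf x hx := by simp [hf x hx]

instance : (nulU M).IsPrime := by
  refine ⟨fun h => ?_, fun {f g} h => ?_⟩
  · have : (1 : HolU M) ∈ nulU M := h ▸ Submodule.mem_top
    obtain ⟨x, hx⟩ := M.conn.nonempty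
    exact one_ne_zero (this x hx)
  · by_contra! hcon
    have h1 : ∃ x ∈ M.U, (f : CN M.N → ℂ) x ≠ 0 := by
      by_contra! h'; exact hcon.1 h'
    have h2 : ∃ x ∈ M.U, (g : CN M.N → ℂ) x ≠ 0 := by
      by_contra! h'; exact hcon.2 h'
    obtain ⟨x, hx, h3⟩ := M.exists_mul_ne_zero f.2 g.2 h1 h2
    exact h3 (h x hx)

/-- the ring of holomorphic functions on `U` -/
abbrev RU : Type := HolU M ⧸ nulU M

/-- the class of a holomorphic function -/
def ru (f : CN M.N → ℂ) (hf : Hol M.U f) : RU M := Ideal.Quotient.mk (nulU M) ⟨f, hf⟩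

theorem ru_surj (a : RU M) : ∃ f hf, a = ru M f hf := by
  obtain ⟨⟨f, hf⟩, rfl⟩ := Ideal.Quotient.mk_surjective a
  exact ⟨f, hf, rfl⟩

/-- evaluation at a point of `U` -/
def evU {x : CN M.N} (hx : x ∈ M.U) : RU M →+* ℂ :=
  Ideal.Quotient.lift (nulU M) ((Pi.evalRingHom _ x).comp (HolU M).subtype) fun _ h => h x hx

theorem evU_ru {x : CN M.N} (hx : x ∈ M.U) (f : CN M.N → ℂ) (hf : Hol M.U f) :
    evU M hx (ru M f hf) = f x := rfl

theorem RU_eq_zero {a : RU M} (h : ∀ x (hx : x ∈ M.U), evU M hx a = 0) : a = 0 := by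
  obtain ⟨f, hf, rfl⟩ := ru_surj M a
  exact Ideal.Quotient.eq_zero_iff_mem.mpr h

variable (F : AlgFrame M.n M.U)

/-- polynomials in `π` -/
def phiU : Pl M.n →+* RU M :=
  (Ideal.Quotient.mk (nulU M)).comp ((Pi.ringHom fun x => eval (F.pr x)).codRestrict (HolU M)
    fun a => hol_of_differentiable _ ((differentiable_eval a).comp (differentiable_pmap F.π)))

theorem evU_phiU {x : CN M.N} (hx : x ∈ M.U) : (evU M hx).comp (phiU M F) = eval (F.pr x) :=
  RingHom.ext fun _ => rfl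

theorem phiU_injective : Function.Injective (phiU M F) := by
  rw [injective_iff_map_eq_zero]
  intro a ha
  by_contra h0
  obtain ⟨x, hx⟩ := M.conn.nonempty
  have := (noe F).dense_pull h0 (F.U_subset hx)
  obtain ⟨y, h1, h2, h3⟩ := mem_closure_iff_nhds.mp this _ (F.eventually_mem_U hx)
  have h4 := congrArg (evU M (h1 h2)) ha
  rw [map_zero, ← RingHom.comp_apply, evU_phiU] at h4
  exact h3 h4

variable {M F}

theorem analyticAt_hol_chart (ch : Chart M.n F.V) {u : CN M.n} (hu : u ∈ ch.s) (hU : ch.c u ∈ M.U)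
    {f : CN M.N → ℂ} (hf : Hol M.U f) : AnalyticAt ℂ (fun t => f (ch.c t)) u := by
  have h1 : ∀ᶠ t in 𝓝 u, ch.c t ∈ M.U :=
    (chart_eventually_iff ch hu).mp (by
      filter_upwards [mem_nhdsWithin_of_mem_nhds (F.eventually_mem_U hU), self_mem_nhdsWithin]
        with y h1 h2 using h1 h2)
  refine SCV.analyticAt_of_eventually ?_
  filter_upwards [h1.eventually_nhds, ch.s_open.mem_nhds hu] with t ht ht'
  exact hol_comp_differentiableAt hf (ch.c_diff.differentiableAt (ch.s_open.mem_nhds ht')) ht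

/-- germs in a chart -/
def psiU (ch : Chart M.n F.V) {u : CN M.n} (hu : u ∈ ch.s) (hU : ch.c u ∈ M.U) : RU M →+* Gm u :=
  Ideal.Quotient.lift (nulU M) (gmHom u (fun t => (Pi.evalRingHom _ (ch.c t)).comp (HolU M).subtype)
    fun f => analyticAt_hol_chart ch hu hU f.2) fun f hf => by
      rw [gmHom_apply, gm_eq_zero]
      refine (chart_eventually_iff ch hu (P := fun y => (f : CN M.N → ℂ) y = 0)).mp ?_
      filter_upwards [mem_nhdsWithin_of_mem_nhds (F.eventually_mem_U hU), self_mem_nhdsWithin]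
        with y h1 h2 using hf y (h1 h2)

theorem psiU_ru (ch : Chart M.n F.V) {u : CN M.n} (hu : u ∈ ch.s) (hU : ch.c u ∈ M.U)
    (f : CN M.N → ℂ) (hf : Hol M.U f) :
    psiU ch hu hU (ru M f hf) = gm (fun t => f (ch.c t)) (analyticAt_hol_chart ch hu hU hf) := rfl

theorem psiU_injective (ch : Chart M.n F.V) {u : CN M.n} (hu : u ∈ ch.s) (hU : ch.c u ∈ M.U) :
    Function.Injective (psiU ch hu hU) := by
  rw [injective_iff_map_eq_zero]
  intro a ha
  obtain ⟨f, hf, rfl⟩ := ru_surj M a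
  rw [psiU_ru, gm_eq_zero] at ha
  have := (chart_eventually_iff ch hu (P := fun y => f y = 0)).mpr ha
  exact RU_eq_zero M (ident M.chart M.conn.isPreconnected hf hU
    (nhdsWithin_mono _ F.U_subset this))

theorem exists_eta0 {κ : Type} (ch : κ → Chart M.n F.V) (hs : ∀ k, F.IsSect (ch k))
    (u : κ → CN M.n) (hu : ∀ k, u k ∈ (ch k).s) (hU : ∀ k, (ch k).c (u k) ∈ M.U)
    (a : κ → Fin M.n → CN M.n → ℂ) (han : ∀ k i, AnalyticAt ℂ (a k i) (u k))
    (halg : ∀ k i, ∃ q : Polynomial (Pl M.n), q ≠ 0 ∧ ∀ᶠ t in 𝓝 (u k), ev2 q t (a k i t) = 0)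
    {c : Fin M.n → CN M.N → ℂ} (hc : ∀ i, Hol M.U (c i)) (hne : ∃ x ∈ M.U, ∃ i, c i x ≠ 0)
    (hrel : ∀ k, ∀ᶠ t in 𝓝 (u k), ∑ i, c i ((ch k).c t) * a k i t = 0) :
    ∃ (η : Fin M.n → CN M.N → ℂ) (q : Fin M.n → Polynomial (Pl M.n)) (Δ : Pl M.n),
      (∀ i, Hol M.U (η i)) ∧ (∃ x ∈ M.U, eval (F.pr x) Δ ≠ 0 ∧ ∃ i, η i x ≠ 0) ∧
      (∀ i, (q i).Monic) ∧ (∀ x ∈ M.U, ∀ i, ev2 (q i) (F.pr x) (η i x) = 0) ∧
      (∀ t, eval t Δ ≠ 0 → eval t F.D ≠ 0) ∧
      (∀ t, eval t Δ ≠ 0 → ∀ i l, ev2 (q i) t l = 0 → ev2 (q i).derivative t l ≠ 0) ∧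
      ∀ k, ∀ᶠ t in 𝓝 (u k), ∑ i, η i ((ch k).c t) * a k i t = 0 := by
  have hφ := phiU_injective M F
  haveI : CharZero (RU M) := charZero_of_injective_ringHom hφ
  obtain ⟨g, d, hd, hg, hint, hrel'⟩ := exists_alg_sol (phiU M F) hφ (fun k => Gm (u k))
    (fun k => psiU (ch k) (hu k) (hU k)) (fun k => psiU_injective _ _ _)
    (fun k i => gm (a k i) (han k i)) (fun k i => by
      obtain ⟨q, hq, hq'⟩ := halg k i
      refine ⟨q, hq, ?_⟩
      have : (psiU (ch k) (hu k) (hU k)).comp (phiU M F) =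
          gmHom (u k) (fun t => eval (F.pr ((ch k).c t))) fun b =>
            ((analyticAt_eval b _).comp (analyticAt_pmap F.π _)).comp ((ch k).an _ (hu k)) :=
        RingHom.ext fun _ => rfl
      rw [this, gm_eval₂_eq_zero]
      filter_upwards [hq', (ch k).s_open.mem_nhds (hu k)] with t ht ht'
      rw [((hs k).pr_c ht').1, ← ev2_eq_eval₂]
      exact ht)
    (fun i => ru M (c i) (hc i)) (fun h0 => by
      obtain ⟨x, hx, i, hi⟩ := hne
      exact hi (by simpa [evU_ru] using congrArg (evU M hx) (congrFun h0 i)))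
    (fun k => by
      simp only [psiU_ru, gm_mul]
      exact (gm_sum_eq_zero _).mpr (hrel k))
  choose G hG hGg using fun i => ru_surj M (g i)
  obtain ⟨D, hD, rfl⟩ := ru_surj M d
  choose q0 hq0 hq0' using hint
  have hDne : ∃ x ∈ M.U, D x ≠ 0 := by
    by_contra! h'; exact hd (RU_eq_zero M h')
  have hroot0 : ∀ i, ∀ x ∈ M.U, D x ≠ 0 → ev2 (q0 i) (F.pr x) (G i x / D x) = 0 := by
    intro i x hx hx'
    have h1 := congrArg (evU M hx) (hq0' i)
    have h2 : evU M hx (g i) = evU M hx (ru M D hD) * (G i x / D x) := by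
      rw [hGg, evU_ru, evU_ru, mul_div_cancel₀ _ hx']
    rw [← Polynomial.eval₂_hom, h2, Polynomial.scaleRoots_eval₂_mul, Polynomial.eval₂_map, evU_phiU,
      map_zero, evU_ru, ← ev2_eq_eval₂] at h1
    exact (mul_eq_zero.mp h1).resolve_left (pow_ne_zero _ hx')
  obtain ⟨R, hR⟩ := M.bdd.isCompact_closure.exists_bound_of_continuousOn
    (continuous_pmap F.π).continuousOn
  have hext : ∀ i, ∃ η : CN M.N → ℂ, Hol M.U η ∧ ∀ y ∈ M.U, D y ≠ 0 → η y = G i y / D y := by
    intro i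
    obtain ⟨C, hC⟩ := root_bound (hq0 i) R
    refine M.riemann_ext hD hDne (f := fun y => G i y / D y) ?_ fun x _ =>
      ⟨univ, univ_mem, C, fun y hy hy' => hC _ (hR y (subset_closure hy.2)) _ (hroot0 i y hy.2 hy')⟩
    simp only [div_eq_mul_inv]
    exact (hol_mono (hG i) inter_subset_left).mul
      ((hol_mono hD inter_subset_left).inv fun x hx => hx.2)
  choose η hη hη' using hext
  have hmul : ∀ i, g i = ru M D hD * ru M (η i) (hη i) := by
    intro i
    have : (g i - ru M D hD * ru M (η i) (hη i)) * ru M D hD = 0 := RU_eq_zero M fun x hx => by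
      rw [map_mul, map_sub, map_mul, hGg, evU_ru, evU_ru, evU_ru]
      by_cases h0 : D x = 0
      · rw [h0, mul_zero]
      · rw [hη' i x hx h0, mul_div_cancel₀ _ h0, sub_self, zero_mul]
    exact sub_eq_zero.mp ((mul_eq_zero.mp this).resolve_right hd)
  have hev : ∀ (q : Polynomial (Pl M.n)) i x (hx : x ∈ M.U),
      evU M hx (q.eval₂ (phiU M F) (ru M (η i) (hη i))) = ev2 q (F.pr x) (η i x) := fun q i x hx => by
    rw [Polynomial.hom_eval₂, evU_phiU, evU_ru, ev2_eq_eval₂]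
  have hint' : ∀ i, (q0 i).eval₂ (phiU M F) (ru M (η i) (hη i)) = 0 := by
    intro i
    have : (q0 i).eval₂ (phiU M F) (ru M (η i) (hη i)) * ru M D hD = 0 := RU_eq_zero M fun x hx => by
      rw [map_mul, hev, evU_ru]
      by_cases h0 : D x = 0
      · rw [h0, mul_zero]
      · rw [hη' i x hx h0, hroot0 i x hx h0, zero_mul]
    exact (mul_eq_zero.mp this).resolve_right hd
  choose q v w Δ hq hq' hΔ hbez using fun i => exists_disc (phiU M F) hφ (hq0 i) (hint' i)
  have hD0 : F.D ≠ 0 := fun h0 => by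
    obtain ⟨x, -, hx⟩ := F.exists_ne
    exact hx (by rw [h0, map_zero])
  refine ⟨η, q, F.D * ∏ i, Δ i, hη, ?_, hq, fun x hx i => by rw [← hev _ _ _ hx, hq', map_zero],
    fun t ht h0 => ht (by rw [map_mul, h0, zero_mul]), fun t ht i l hl h0 => ht ?_, fun k => ?_⟩
  · obtain ⟨i, hi⟩ := Function.ne_iff.mp hg
    have h1 : ru M (η i) (hη i) ≠ 0 := fun h0 => hi (by rw [hmul, h0, mul_zero]; rfl)
    have h2 : phiU M F (F.D * ∏ i, Δ i) ≠ 0 :=
      (map_ne_zero_iff _ hφ).mpr (mul_ne_zero hD0 (Finset.prod_ne_zero_iff.mpr fun i _ => hΔ i))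
    by_contra! hcon
    refine mul_ne_zero h2 h1 (RU_eq_zero M fun x hx => ?_)
    rw [map_mul, ← RingHom.comp_apply, evU_phiU, evU_ru]
    by_cases h0 : eval (F.pr x) (F.D * ∏ i, Δ i) = 0
    · rw [h0, zero_mul]
    · rw [hcon x hx h0 i, mul_zero]
  · have := congrArg (ev2Hom t l) (hbez i)
    rw [map_add, map_mul, map_mul, ev2Hom_apply _ _ (q i), ev2Hom_apply _ _ (Polynomial.derivative _),
      hl, h0, mul_zero, mul_zero, add_zero] at this
    rw [map_mul, map_prod, Finset.prod_eq_zero (Finset.mem_univ i), mul_zero]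
    simpa [ev2Hom] using this.symm
  · have h1 := hrel' k
    simp only [hmul, map_mul, mul_assoc, ← Finset.mul_sum] at h1
    have h2 := (mul_eq_zero.mp h1).resolve_left ((map_ne_zero_iff _ (psiU_injective _ _ _)).mpr hd)
    simp only [psiU_ru, gm_mul] at h2
    exact (gm_sum_eq_zero _).mp h2

end Crest.Agent.R264.P7
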