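import Crest.Agent.R264.P7.Defs

/-!
# Row 264, P7: germs of analytic functions; algebraicity of the coefficients
-/

set_option autoImplicit false
open Set Filter Topology Metric

noncomputable section
namespace Crest.Agent.R264.P7

open A MvPolynomial

section germ
variable {X : Type} [NormedAddCommGroup X] [NormedSpace ℂ X]

/-- functions analytic at `z` -/
def An (z : X) : Subring (X → ℂ) where
  carrier := {f | AnalyticAt ℂ f z}
  mul_mem' hf hg := AnalyticAt.mul hf hg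
  one_mem' := analyticAt_const
  add_mem' hf hg := AnalyticAt.add hf hg
  zero_mem' := analyticAt_const
  neg_mem' hf := AnalyticAt.neg hf

/-- functions vanishing near `z` -/
def nul (z : X) : Ideal (An z) where
  carrier := {f | ∀ᶠ x in 𝓝 z, (f : X → ℂ) x = 0}
  add_mem' {f g} hf hg := by
    filter_upwards [hf, hg] with x h1 h2
    simp [h1, h2]
  zero_mem' := Eventually.of_forall fun _ => rfl
  smul_mem' c f hf := by
    filter_upwards [hf] with x h1
    simp [h1]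

instance (z : X) : (nul z).IsPrime := by
  refine ⟨fun h => ?_, fun {f g} h => ?_⟩
  · have : (1 : An z) ∈ nul z := h ▸ Submodule.mem_top
    exact one_ne_zero (Eventually.self_of_nhds (p := fun x => ((1 : An z) : X → ℂ) x = 0) this)
  · have h1 : ∀ᶠ x in 𝓝 z, AnalyticAt ℂ (f : X → ℂ) x ∧ AnalyticAt ℂ (g : X → ℂ) x ∧
        (f : X → ℂ) x * (g : X → ℂ) x = 0 :=
      (AnalyticAt.eventually_analyticAt f.2).and ((AnalyticAt.eventually_analyticAt g.2).and h)
    obtain ⟨r, hr, hb⟩ := Metric.eventually_nhds_iff_ball.mp h1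
    by_cases hf : ∀ x ∈ ball z r, (f : X → ℂ) x = 0
    · exact Or.inl (by filter_upwards [ball_mem_nhds z hr] with x hx using hf x hx)
    · right
      push Not at hf
      obtain ⟨y, hy, hfy⟩ := hf
      have h2 : (g : X → ℂ) =ᶠ[𝓝 y] 0 := by
        filter_upwards [(hb y hy).1.continuousAt.eventually_ne hfy, isOpen_ball.mem_nhds hy] with x h1 h2
        exact (mul_eq_zero.mp (hb x h2).2.2).resolve_left h1
      have h3 := AnalyticOnNhd.eqOn_zero_of_preconnected_of_eventuallyEq_zero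
        (fun x hx => (hb x hx).2.1) (convex_ball z r).isPreconnected hy h2
      filter_upwards [ball_mem_nhds z hr] with x hx using h3 hx

/-- germs of analytic functions -/
abbrev Gm (z : X) : Type := An z ⧸ nul z

/-- the germ of an analytic function -/
def gm {z : X} (f : X → ℂ) (hf : AnalyticAt ℂ f z) : Gm z := Ideal.Quotient.mk (nul z) ⟨f, hf⟩

theorem gm_eq_zero {z : X} {f : X → ℂ} (hf : AnalyticAt ℂ f z) :
    gm f hf = 0 ↔ ∀ᶠ x in 𝓝 z, f x = 0 := Ideal.Quotient.eq_zero_iff_mem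

theorem gm_add {z : X} {f g : X → ℂ} (hf : AnalyticAt ℂ f z) (hg : AnalyticAt ℂ g z) :
    gm f hf + gm g hg = gm (fun x => f x + g x) (hf.add hg) := rfl

theorem gm_mul {z : X} {f g : X → ℂ} (hf : AnalyticAt ℂ f z) (hg : AnalyticAt ℂ g z) :
    gm f hf * gm g hg = gm (fun x => f x * g x) (hf.mul hg) := rfl

theorem gm_sub {z : X} {f g : X → ℂ} (hf : AnalyticAt ℂ f z) (hg : AnalyticAt ℂ g z) :
    gm f hf - gm g hg = gm (fun x => f x - g x) (hf.sub hg) := rfl

theorem gm_congr {z : X} {f g : X → ℂ} (hf : AnalyticAt ℂ f z) (hg : AnalyticAt ℂ g z)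
    (h : ∀ x, f x = g x) : gm f hf = gm g hg := by
  obtain rfl : f = g := funext h
  rfl

theorem gm_surj {z : X} (a : Gm z) : ∃ f hf, a = gm f hf := by
  obtain ⟨⟨f, hf⟩, rfl⟩ := Ideal.Quotient.mk_surjective a
  exact ⟨f, hf, rfl⟩

theorem gm_sum_eq_zero {z : X} {ι : Type} [Fintype ι] {f : ι → X → ℂ}
    (hf : ∀ i, AnalyticAt ℂ (f i) z) :
    ∑ i, gm (f i) (hf i) = 0 ↔ ∀ᶠ x in 𝓝 z, ∑ i, f i x = 0 := by
  simp only [gm]
  rw [← map_sum, Ideal.Quotient.eq_zero_iff_mem]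
  change (∀ᶠ x in 𝓝 z, _) ↔ _
  simp

variable {A : Type} [CommRing A]

/-- the homomorphism to functions analytic at `z` given by a family of characters -/
def anHom (z : X) (ev : X → A →+* ℂ) (h : ∀ a, AnalyticAt ℂ (fun x => ev x a) z) : A →+* An z :=
  (Pi.ringHom ev).codRestrict (An z) h

/-- the homomorphism to germs given by a family of characters -/
def gmHom (z : X) (ev : X → A →+* ℂ) (h : ∀ a, AnalyticAt ℂ (fun x => ev x a) z) : A →+* Gm z :=
  (Ideal.Quotient.mk (nul z)).comp (anHom z ev h)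

theorem gmHom_apply (z : X) (ev : X → A →+* ℂ) (h : ∀ a, AnalyticAt ℂ (fun x => ev x a) z) (a : A) :
    gmHom z ev h a = gm (fun x => ev x a) (h a) := rfl

theorem gm_eval₂_eq_zero (z : X) (ev : X → A →+* ℂ) (h : ∀ a, AnalyticAt ℂ (fun x => ev x a) z)
    (q : Polynomial A) {f : X → ℂ} (hf : AnalyticAt ℂ f z) :
    q.eval₂ (gmHom z ev h) (gm f hf) = 0 ↔ ∀ᶠ x in 𝓝 z, q.eval₂ (ev x) (f x) = 0 := by
  rw [gmHom, gm, ← Polynomial.hom_eval₂, Ideal.Quotient.eq_zero_iff_mem]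
  change (∀ᶠ x in 𝓝 z, _) ↔ _
  refine eventually_congr (Eventually.of_forall fun x => ?_)
  have := Polynomial.hom_eval₂ q (anHom z ev h) ((Pi.evalRingHom _ x).comp (An z).subtype) ⟨f, hf⟩
  exact Eq.congr_left this

end germ

/-- `q ↦ q(t, l)` as a ring homomorphism -/
def ev2Hom {n : ℕ} (t : CN n) (l : ℂ) : Polynomial (Pl n) →+* ℂ :=
  (Polynomial.evalRingHom l).comp (Polynomial.mapRingHom (eval t))

theorem ev2Hom_apply {n : ℕ} (t : CN n) (l : ℂ) (q : Polynomial (Pl n)) :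
    ev2Hom t l q = ev2 q t l := rfl

theorem ev2_eq_eval₂ {n : ℕ} (t : CN n) (l : ℂ) (q : Polynomial (Pl n)) :
    ev2 q t l = q.eval₂ (eval t) l := Polynomial.eval_map _ _

/-- conjugate coefficients, substitute `w + σ e` -/
def kap {n : ℕ} (w e : CN n) : Pl n →+* Polynomial (Pl n) :=
  eval₂Hom ((Polynomial.C.comp C).comp (starRingEnd ℂ))
    fun i => Polynomial.C (C (w i)) + Polynomial.C (C (e i)) * Polynomial.X

theorem ev2Hom_kap {n : ℕ} (w e t : CN n) (σ : ℂ) :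
    (ev2Hom t σ).comp (kap w e) = (starRingEnd ℂ).comp (eval (star (w + σ • e))) := by
  refine ringHom_ext (fun c => ?_) fun i => ?_
  · simp [kap, ev2Hom]
  · simp [kap, ev2Hom]
    ring

variable {N n : ℕ} {U : Set (CN N)} {F : AlgFrame n U}

theorem analyticAt_cpol_comp {X : Type} [NormedAddCommGroup X] [NormedSpace ℂ X]
    (ch : Chart n F.V) {z : X} {t : X → CN n} {σ : X → ℂ} (ht : AnalyticAt ℂ t z)
    (hσ : AnalyticAt ℂ σ z) {w e : CN n} (h1 : t z ∈ ch.s) (h2 : star (w + σ z • e) ∈ ch.s)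
    (Q : P2 N) : AnalyticAt ℂ (fun x => cpol Q ch.c (t x, w + σ x • e)) z :=
  AnalyticAt.comp (g := cpol Q ch.c) (f := fun x => (t x, w + σ x • e))
    (cpol_analyticAt Q (ch.an _ h1) (ch.an _ h2))
    (ht.prod (analyticAt_const.add (hσ.smul analyticAt_const)))

theorem analyticAt_ev2Hom {X : Type} [NormedAddCommGroup X] [NormedSpace ℂ X] {z : X}
    {t : X → CN n} {σ : X → ℂ} (ht : AnalyticAt ℂ t z) (hσ : AnalyticAt ℂ σ z)
    (q : Polynomial (Pl n)) : AnalyticAt ℂ (fun x => ev2Hom (t x) (σ x) q) z :=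
  AnalyticAt.comp (g := fun z : CN n × ℂ => ev2 q z.1 z.2) (f := fun x => (t x, σ x))
    (analyticAt_ev2 q _) (ht.prod hσ)

theorem integral_cpol {X : Type} [NormedAddCommGroup X] [NormedSpace ℂ X]
    {ch : Chart n F.V} (hs : F.IsSect ch) {z : X} {t : X → CN n} {σ : X → ℂ}
    (ht : AnalyticAt ℂ t z) (hσ : AnalyticAt ℂ σ z) {w e : CN n} (h1 : t z ∈ ch.s)
    (h2 : star (w + σ z • e) ∈ ch.s) (Q : P2 N) :
    (gmHom z (fun x => ev2Hom (t x) (σ x)) (analyticAt_ev2Hom ht hσ)).IsIntegralElem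
      (gm _ (analyticAt_cpol_comp ch ht hσ h1 h2 Q)) := by
  have hroot : ∀ a, ∃ q : Polynomial (Pl n), q.Monic ∧ ∀ u ∈ ch.s, ev2 q u (ch.c u a) = 0 := by
    intro a
    obtain ⟨q, hq, hq'⟩ := F.integral a
    refine ⟨q, hq, fun u hu => ?_⟩
    have := ev2_of_mem (π := F.π) (f := MvPolynomial.X a) hq' (ch.maps hu)
    rw [eval_X] at this
    have h3 : pmap F.π (ch.c u) = u := (hs.pr_c hu).1
    rwa [h3] at this
  have hX : ∀ s : Fin N ⊕ Fin N,
      (gmHom z (fun x => ev2Hom (t x) (σ x)) (analyticAt_ev2Hom ht hσ)).IsIntegralElem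
      (gm _ (analyticAt_cpol_comp ch ht hσ h1 h2 (MvPolynomial.X s))) := by
    rintro (a | a)
    · obtain ⟨q, hq, hq'⟩ := hroot a
      refine ⟨q.map Polynomial.C, hq.map _, (gm_eval₂_eq_zero _ _ _ _ _).mpr ?_⟩
      filter_upwards [ht.continuousAt.eventually (ch.s_open.mem_nhds h1)] with x hx
      rw [Polynomial.eval₂_map, ← hq' _ hx, ev2_eq_eval₂]
      congr 1
      · exact RingHom.ext fun a => by simp [ev2Hom]
      · simp [cpol, pe]
    · obtain ⟨q, hq, hq'⟩ := hroot a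
      refine ⟨q.map (kap w e), hq.map _, (gm_eval₂_eq_zero _ _ _ _ _).mpr ?_⟩
      have hc : ContinuousAt (fun x => star (w + σ x • e)) z :=
        (continuousAt_const.add (hσ.continuousAt.smul continuousAt_const)).star
      filter_upwards [hc.eventually (ch.s_open.mem_nhds h2)] with x hx
      have h3 := congrArg (starRingEnd ℂ) (hq' _ hx)
      rw [ev2_eq_eval₂, Polynomial.hom_eval₂, map_zero] at h3
      rw [Polynomial.eval₂_map, ev2Hom_kap, ← h3]
      congr 1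
      simp [cpol, pe]
  induction Q using MvPolynomial.induction_on with
  | C c =>
    have := (gmHom z (fun x => ev2Hom (t x) (σ x)) (analyticAt_ev2Hom ht hσ)).isIntegralElem_map
      (x := Polynomial.C (C c))
    rw [gmHom_apply] at this
    convert this using 3
    simp [cpol, pe, ev2Hom]
  | add a b ha hb =>
    have := RingHom.IsIntegralElem.add _ ha hb
    rw [gm_add] at this
    rwa [gm_congr _ _ fun x => by simp only [cpol, pe, map_add]; rfl]
  | mul_X a s ha =>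
    have := RingHom.IsIntegralElem.mul _ ha (hX s)
    rw [gm_mul] at this
    rwa [gm_congr _ _ fun x => by simp only [cpol, pe, map_mul]; rfl]

theorem alg_tau {ch : Chart n F.V} (hs : F.IsSect ch) {u1 w e : CN n} {τ : CN n → ℂ}
    (hτ : AnalyticAt ℂ τ u1) (h1 : u1 ∈ ch.s) (h2 : star (w + τ u1 • e) ∈ ch.s) {ρ : P2 N}
    (hP : ∀ᶠ u in 𝓝 u1, cpol ρ ch.c (u, w + τ u • e) = 0)
    (hd : fderiv ℂ (cpol ρ ch.c) (u1, w + τ u1 • e) (0, e) ≠ 0) :
    ∃ q : Polynomial (Pl n), q ≠ 0 ∧ ∀ᶠ u in 𝓝 u1, ev2 q u (τ u) = 0 := by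
  have ht : AnalyticAt ℂ (fun z : CN n × ℂ => z.1) (u1, τ u1) := analyticAt_fst
  have hσ : AnalyticAt ℂ (fun z : CN n × ℂ => z.2) (u1, τ u1) := analyticAt_snd
  have hint := integral_cpol hs ht hσ (w := w) (e := e) h1 h2 ρ
  letI := (gmHom (u1, τ u1) (fun x : CN n × ℂ => ev2Hom x.1 x.2) (analyticAt_ev2Hom ht hσ)).toAlgebra
  have h0 : gm _ (analyticAt_cpol_comp ch ht hσ (w := w) (e := e) h1 h2 ρ) ≠ 0 := by
    rw [Ne, gm_eq_zero]
    intro h
    apply hd
    have hl : HasDerivAt (fun σ : ℂ => (u1, w + σ • e)) (0, e) (τ u1) :=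
      (hasDerivAt_const _ _).prodMk (by simpa using ((hasDerivAt_id (τ u1)).smul_const e).const_add w)
    have h3 := (cpol_analyticAt ρ (z := (u1, w + τ u1 • e)) (ch.an _ h1)
      (ch.an _ h2)).differentiableAt.hasFDerivAt.comp_hasDerivAt (τ u1) hl
    have h4 : Tendsto (fun σ : ℂ => (u1, σ)) (𝓝 (τ u1)) (𝓝 (u1, τ u1)) :=
      (continuous_const.prodMk continuous_id).continuousAt
    exact h3.unique ((hasDerivAt_const _ (0 : ℂ)).congr_of_eventuallyEq (h4.eventually h))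
  have := Ideal.comap_ne_bot_of_integral_mem (R := Polynomial (Pl n)) h0
    (Ideal.mem_span_singleton_self _) hint
  obtain ⟨q, hq, hq0⟩ := Submodule.exists_mem_ne_zero_of_ne_bot this
  rw [Ideal.mem_comap, Ideal.mem_span_singleton] at hq
  obtain ⟨b, hb⟩ := hq
  obtain ⟨G, hG, rfl⟩ := gm_surj b
  rw [RingHom.algebraMap_toAlgebra, gmHom_apply, gm_mul, ← sub_eq_zero, gm_sub, gm_eq_zero] at hb
  have h5 : Tendsto (fun u => (u, τ u)) (𝓝 u1) (𝓝 (u1, τ u1)) :=
    continuousAt_id.prodMk hτ.continuousAt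
  refine ⟨q, hq0, ?_⟩
  filter_upwards [h5.eventually hb, hP] with u hu hu'
  rw [hu', zero_mul, sub_zero] at hu
  exact hu

/-- The coefficients are algebraic functions. -/
theorem alg_coeff {ch : Chart n F.V} (hs : F.IsSect ch) {u1 w e : CN n} {τ : CN n → ℂ}
    (hτ : AnalyticAt ℂ τ u1) (h1 : u1 ∈ ch.s) (h2 : star (w + τ u1 • e) ∈ ch.s) {ρ : P2 N}
    (hP : ∀ᶠ u in 𝓝 u1, cpol ρ ch.c (u, w + τ u • e) = 0)
    (hd : fderiv ℂ (cpol ρ ch.c) (u1, w + τ u1 • e) (0, e) ≠ 0) (Q : P2 N) :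
    ∃ q : Polynomial (Pl n), q ≠ 0 ∧ ∀ᶠ u in 𝓝 u1, ev2 q u (cpol Q ch.c (u, w + τ u • e)) = 0 := by
  obtain ⟨q0, hq0, hq0'⟩ := alg_tau hs hτ h1 h2 hP hd
  have ht : AnalyticAt ℂ (fun u : CN n => u) u1 := analyticAt_id
  obtain ⟨p, hp, hp'⟩ := integral_cpol hs ht hτ (w := w) (e := e) h1 h2 Q
  letI := (gmHom u1 (fun u : CN n => eval u) fun a => analyticAt_eval a u1).toAlgebra
  have hτ' : IsAlgebraic (Pl n) (gm τ hτ) := ⟨q0, hq0, by
    rw [Polynomial.aeval_def, RingHom.algebraMap_toAlgebra, gm_eval₂_eq_zero]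
    simpa only [ev2_eq_eval₂] using hq0'⟩
  let S := Subalgebra.algebraicClosure (Pl n) (Gm u1)
  let θ : Polynomial (Pl n) →ₐ[Pl n] S := Polynomial.aeval ⟨gm τ hτ, hτ'⟩
  have hθ : (algebraMap S (Gm u1)).comp θ.toRingHom =
      gmHom u1 (fun x => ev2Hom x (τ x)) (analyticAt_ev2Hom ht hτ) := by
    refine Polynomial.ringHom_ext (fun a => ?_) ?_
    · simp only [θ, RingHom.comp_apply, AlgHom.toRingHom_eq_coe, RingHom.coe_coe, Polynomial.aeval_C,
        gmHom_apply]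
      change gm (fun u => eval u a) _ = _
      congr 1
      funext x
      simp [ev2Hom]
    · simp only [θ, RingHom.comp_apply, AlgHom.toRingHom_eq_coe, RingHom.coe_coe, Polynomial.aeval_X,
        gmHom_apply]
      change gm _ _ = _
      congr 1
      funext x
      simp [ev2Hom]
  have hi : IsIntegral S (gm _ (analyticAt_cpol_comp ch ht hτ (w := w) (e := e) h1 h2 Q)) :=
    ⟨p.map θ.toRingHom, hp.map _, by rw [Polynomial.eval₂_map, hθ]; exact hp'⟩
  obtain ⟨q, hq, hq'⟩ := hi.isAlgebraic.restrictScalars (Pl n)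
  rw [Polynomial.aeval_def, RingHom.algebraMap_toAlgebra, gm_eval₂_eq_zero] at hq'
  exact ⟨q, hq, by simpa only [ev2_eq_eval₂] using hq'⟩

end Crest.Agent.R264.P7
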