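import Crest.Agent.R264.P3.Lip
import Crest.Agent.R264.SCV3
import Crest.Agent.R264.Osgood

/-!
# Row 264, P7: generic complex leaves meet a thin set in a countable set
-/

set_option autoImplicit false
open Set Filter Topology Metric MeasureTheory

noncomputable section
namespace Crest.Agent.R264.P7

/-- dyadic index -/
def Indic0_idx {m : ℕ} (k : ℕ) (x : Fin m → ℝ) : Fin m → ℤ := fun i => ⌊(2 : ℝ) ^ k * x i⌋

theorem Indic0_meas {m : ℕ} (k : ℕ) : Measurable (Indic0_idx (m := m) k) :=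
  measurable_pi_lambda _ fun i => ((measurable_pi_apply i).const_mul _).floor

theorem Indic0_sep {m : ℕ} {x x' : Fin m → ℝ} (h : x ≠ x') :
    ∀ᶠ k in atTop, Indic0_idx k x ≠ Indic0_idx k x' := by
  obtain ⟨i, hi⟩ := Function.ne_iff.1 h
  have hd : 0 < |x i - x' i| := abs_pos.2 (sub_ne_zero.2 hi)
  have ht : Tendsto (fun k : ℕ => (2 : ℝ) ^ k * |x i - x' i|) atTop atTop :=
    (tendsto_pow_atTop_atTop_of_one_lt one_lt_two).atTop_mul_const hd
  filter_upwards [ht.eventually_ge_atTop 1] with k hk he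
  have := Int.abs_sub_lt_one_of_floor_eq_floor (congrFun he i)
  rw [← mul_sub, abs_mul, abs_of_pos (by positivity : (0 : ℝ) < 2 ^ k)] at this
  linarith

/-- Banach indicatrix: almost all fibres of a Lipschitz map between spaces of dimension `m` are
finite on bounded sets.  Hint: `μ = μH[m]` on `G`; `Q k j = {x | ∀ i, ⌊2^k * x i⌋ = j i}`
(`j : Fin m → ℤ`) is a measurable partition; `μ (g '' (Q k j ∩ B ∩ S)) ≤ C^m * volume (Q k j ∩ B)`
(`LipschitzOnWith.hausdorffMeasure_image_le`, `hausdorffMeasure_pi_real`), so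
`N k = ∑' j, indicator (toMeasurable μ (g '' (Q k j ∩ B ∩ S))) 1` has integral `≤ C^m * volume B`
(`lintegral_tsum`, `measure_iUnion`); an infinite fibre forces `liminf N k y = ⊤`; Fatou
(`lintegral_liminf_le`, `ae_lt_top`). -/
theorem ae_finite_fibre {m : ℕ} {G : Type*} [EMetricSpace G] [MeasurableSpace G] [BorelSpace G]
    {g : (Fin m → ℝ) → G} {S : Set (Fin m → ℝ)} {C : NNReal} (hg : LipschitzOnWith C g S) (R : ℝ) :
    ∀ᵐ y ∂(μH[(m : ℝ)] : Measure G), (S ∩ closedBall 0 R ∩ g ⁻¹' {y}).Finite := by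
  classical
  set μ : Measure G := μH[(m : ℝ)] with hμ
  set B : Set (Fin m → ℝ) := closedBall 0 R with hB
  let Q : ℕ → (Fin m → ℤ) → Set (Fin m → ℝ) := fun k j => Indic0_idx k ⁻¹' {j} ∩ B
  have hQ : ∀ k j, MeasurableSet (Q k j) := fun k j =>
    (Indic0_meas k (measurableSet_singleton j)).inter measurableSet_closedBall
  let T : ℕ → (Fin m → ℤ) → Set G := fun k j => toMeasurable μ (g '' (Q k j ∩ S))
  have hT : ∀ k j, MeasurableSet (T k j) := fun k j => measurableSet_toMeasurable _ _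
  let Nf : ℕ → G → ENNReal := fun k y => ∑' j, (T k j).indicator 1 y
  have hNm : ∀ k, Measurable (Nf k) := fun k =>
    Measurable.ennreal_tsum fun j => measurable_one.indicator (hT k j)
  have hvol : ∀ A : Set (Fin m → ℝ), μH[(m : ℝ)] A = volume A := fun A => by
    have := hausdorffMeasure_pi_real (ι := Fin m)
    rw [Fintype.card_fin] at this
    rw [this]
  have hint : ∀ k, ∫⁻ y, Nf k y ∂μ ≤ (C : ENNReal) ^ (m : ℝ) * volume B := by
    intro k
    rw [lintegral_tsum fun j => (measurable_one.indicator (hT k j)).aemeasurable]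
    have hU : B = ⋃ j, Q k j := by
      ext x
      simp [Q]
    have hdisj : Pairwise (Function.onFun Disjoint (Q k)) := fun j j' hjj =>
      Set.disjoint_left.2 fun x hx hx' => hjj (hx.1.symm.trans hx'.1)
    rw [hU, measure_iUnion hdisj (hQ k), ← ENNReal.tsum_mul_left]
    refine ENNReal.tsum_le_tsum fun j => ?_
    rw [lintegral_indicator_one (hT k j), measure_toMeasurable]
    refine ((hg.mono inter_subset_right).hausdorffMeasure_image_le (Nat.cast_nonneg m)).trans ?_
    rw [hvol]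
    gcongr
    exact inter_subset_left
  have hfin : (C : ENNReal) ^ (m : ℝ) * volume B ≠ ⊤ :=
    ENNReal.mul_ne_top (ENNReal.rpow_ne_top_of_nonneg (Nat.cast_nonneg m) ENNReal.coe_ne_top)
      measure_closedBall_lt_top.ne
  have hlim : ∫⁻ y, liminf (fun k => Nf k y) atTop ∂μ ≠ ⊤ := by
    refine ne_top_of_le_ne_top hfin ((lintegral_liminf_le hNm).trans ?_)
    exact liminf_le_of_frequently_le' (Frequently.of_forall hint)
  filter_upwards [ae_lt_top (Measurable.liminf hNm) hlim] with y hy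
  by_contra hinf
  refine hy.ne (ENNReal.eq_top_of_forall_nnreal_le fun c => ?_)
  obtain ⟨p, hp⟩ := exists_nat_ge c
  obtain ⟨A, hA, hcard⟩ := Set.Infinite.exists_subset_card_eq hinf p
  refine le_liminf_of_le (by isBoundedDefault) ?_
  have hsep : ∀ᶠ k in atTop, ∀ x ∈ A, ∀ x' ∈ A, x ≠ x' → Indic0_idx k x ≠ Indic0_idx k x' := by
    refine (A.eventually_all).2 fun x _ => (A.eventually_all).2 fun x' _ => ?_
    by_cases h : x = x'
    · exact Eventually.of_forall fun _ h' => absurd h h'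
    · exact (Indic0_sep h).mono fun _ h' _ => h'
  filter_upwards [hsep] with k hk
  have hinj : Set.InjOn (Indic0_idx k) (A : Set (Fin m → ℝ)) := by
    intro x hx x' hx' e
    by_contra h
    exact hk x (Finset.mem_coe.1 hx) x' (Finset.mem_coe.1 hx') h e
  calc (c : ENNReal) ≤ (p : ENNReal) := by exact_mod_cast hp
    _ = ∑ j ∈ A.image (Indic0_idx k), (T k j).indicator 1 y := by
      rw [← hcard, ← Finset.card_image_of_injOn hinj, Finset.card_eq_sum_ones]
      push_cast
      refine Finset.sum_congr rfl fun j hj => ?_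
      obtain ⟨x, hx, rfl⟩ := Finset.mem_image.1 hj
      have hx' := hA hx
      have hy' : y ∈ g '' (Q k (Indic0_idx k x) ∩ S) := ⟨x, ⟨⟨rfl, hx'.1.2⟩, hx'.1.1⟩, hx'.2⟩
      rw [indicator_of_mem (subset_toMeasurable μ _ hy')]
      rfl
    _ ≤ Nf k y := ENNReal.sum_le_tsum _

/-- Hint: `ae_finite_fibre` for `Pj ∘ f i` on `S i ∩ f i ⁻¹' A`, `ae_all_iff`; `μH[finrank ℝ G]` is
an additive Haar measure (`Measure.isAddHaarMeasure_hausdorffMeasure`), `Measure.dense_of_ae`. -/
theorem dense_countable_fibre {X G : Type*} [PseudoEMetricSpace X] [NormedAddCommGroup G]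
    [NormedSpace ℝ G] [FiniteDimensional ℝ G] {A : Set X} (hA : LipCov (Module.finrank ℝ G) A)
    {Pj : X → G} {C : NNReal} (hP : LipschitzOnWith C Pj A) :
    Dense {y : G | (A ∩ Pj ⁻¹' {y}).Countable} := by
  borelize G
  obtain ⟨f, S, hf, hcov⟩ := hA
  choose L hL using hf
  have h1 : ∀ᵐ y ∂(μH[(Module.finrank ℝ G : ℝ)] : Measure G), ∀ i : ℕ, ∀ R : ℕ,
      (S i ∩ f i ⁻¹' A ∩ closedBall 0 R ∩ (Pj ∘ f i) ⁻¹' {y}).Finite :=
    ae_all_iff.2 fun i => ae_all_iff.2 fun R =>
      ae_finite_fibre (hP.comp ((hL i).mono inter_subset_left) fun _ h => h.2) R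
  refine (Measure.dense_of_ae h1).mono fun y hy => ?_
  refine (countable_iUnion fun i => countable_iUnion fun R : ℕ =>
    ((hy i R).image (f i)).countable).mono ?_
  rintro x ⟨hxA, hxy⟩
  obtain ⟨i, z, hz, rfl⟩ := mem_iUnion.1 (hcov hxA)
  obtain ⟨R, hR⟩ := exists_nat_ge ‖z‖
  exact mem_iUnion₂.2 ⟨i, R, z, ⟨⟨⟨hz, hxA⟩, mem_closedBall_zero_iff.2 hR⟩, hxy⟩, rfl⟩

end Crest.Agent.R264.P7
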