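import Crest.Agent.R264.A6

/-!
# Row 264, P7: countable closed sets are removable
-/

set_option autoImplicit false
open Set Filter Topology Metric

noncomputable section
namespace Crest.Agent.R264.P7

/-- Hint: `Set.Countable.dense_compl ℝ`. -/
theorem mem_closure_diff {D Z : Set ℂ} (hD : IsOpen D) (hZ : Z.Countable) :
    D ⊆ closure (D \ Z) :=
  (hZ.dense_compl ℝ).open_subset_closure_inter hD

/-- Hint: a homeomorphism `ℂ ≃ ball` (`OpenPartialHomeomorph.univBall`) and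
`Set.Countable.isPathConnected_compl_of_one_lt_rank`, or a direct two-segment argument. -/
theorem isPreconnected_ball_diff (c : ℂ) (r : ℝ) {Z : Set ℂ} (hZ : Z.Countable) :
    IsPreconnected (ball c r \ Z) := by
  rcases le_or_gt r 0 with hr | hr
  · rw [ball_eq_empty.2 hr, empty_sdiff]
    exact isPreconnected_empty
  set e : OpenPartialHomeomorph ℂ ℂ := OpenPartialHomeomorph.univBall c r with he
  have hs : e.source = univ := OpenPartialHomeomorph.univBall_source c r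
  have ht : e.target = ball c r := OpenPartialHomeomorph.univBall_target c hr
  have hc : (e ⁻¹' Z).Countable := hZ.preimage_of_injOn (e.injOn.mono (hs ▸ subset_univ _))
  have h1 : ball c r \ Z = e '' (e ⁻¹' Z)ᶜ := by
    ext w
    constructor
    · rintro ⟨h1, h2⟩
      have h3 := e.right_inv (ht ▸ h1)
      exact ⟨e.symm w, by rwa [mem_compl_iff, mem_preimage, h3], h3⟩
    · rintro ⟨v, hv, rfl⟩
      exact ⟨ht ▸ e.map_source (hs ▸ mem_univ v), hv⟩
  rw [h1]
  exact (hc.isConnected_compl_of_one_lt_rank (by simp)).2.image _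
    (e.continuousOn.mono (hs ▸ subset_univ _))

/-- A nonempty countable relatively closed subset of an open set has an isolated point.  Hint:
`D ∩ Z` is locally closed, hence locally compact and Baire as a subtype;
`nonempty_interior_of_iUnion_of_closed` for the singletons. -/
theorem exists_isolated {D Z : Set ℂ} (hD : IsOpen D) (hZ : Z.Countable) (hZc : IsOpen (D \ Z))
    (hne : (D ∩ Z).Nonempty) : ∃ z ∈ D ∩ Z, ∀ᶠ w in 𝓝[≠] z, w ∈ D \ Z := by
  have hl : IsLocallyClosed (D ∩ Z) := ⟨D, (D \ Z)ᶜ, hD, hZc.isClosed_compl, by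
    ext w
    simp only [mem_inter_iff, mem_compl_iff, Set.mem_sdiff]
    tauto⟩
  have := hl.locallyCompactSpace
  have := hne.to_subtype
  have := (hZ.mono (inter_subset_right (s := D))).to_subtype
  obtain ⟨i, y, hy⟩ := nonempty_interior_of_iUnion_of_closed
    (f := fun x : (D ∩ Z : Set ℂ) => ({x} : Set (D ∩ Z : Set ℂ))) (fun _ => isClosed_singleton)
    (iUnion_of_singleton _)
  obtain rfl : y = i := mem_singleton_iff.1 (interior_subset hy)
  obtain ⟨u, hu, hsub⟩ := (mem_nhds_subtype _ _ _).1 (mem_interior_iff_mem_nhds.1 hy)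
  refine ⟨y, y.2, ?_⟩
  filter_upwards [mem_nhdsWithin_of_mem_nhds hu, mem_nhdsWithin_of_mem_nhds (hD.mem_nhds y.2.1),
    self_mem_nhdsWithin] with w h1 h2 h3
  exact ⟨h2, fun h4 => h3 (congrArg Subtype.val (hsub (a := ⟨w, h2, h4⟩) h1))⟩

/-- Removable singularities.  Hint: `g' z = limUnder (𝓝[D \ Z] z) g`;
`Ω = {z ∈ D | ∃ h, AnalyticAt ℂ h z ∧ ∀ᶠ w in 𝓝 z, w ∈ D \ Z → h w = g w}` is open, contains `D \ Z`,
and `g' = h` near points of `Ω` (`mem_closure_diff`); an isolated point of `D \ Ω` is removable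
(`Complex.differentiableOn_update_limUnder_of_bddAbove` for `g'`), so `Ω = D`. -/
theorem removable_countable {F : Type*} [NormedAddCommGroup F] [NormedSpace ℂ F] [CompleteSpace F]
    {D Z : Set ℂ} (hD : IsOpen D) (hZ : Z.Countable) (hZc : IsOpen (D \ Z)) {g : ℂ → F}
    (hg : DifferentiableOn ℂ g (D \ Z)) {M : ℝ} (hM : ∀ z ∈ D \ Z, ‖g z‖ ≤ M) :
    ∃ g' : ℂ → F, DifferentiableOn ℂ g' D ∧ EqOn g' g (D \ Z) ∧ ∀ z ∈ D, ‖g' z‖ ≤ M := by
  classical
  set g' : ℂ → F := fun z => limUnder (𝓝[D \ Z] z) g with hg'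
  have A0 : ∀ w ∈ D, ∀ h : ℂ → F, ContinuousAt h w → (∀ᶠ v in 𝓝 w, v ∈ D \ Z → h v = g v) →
      g' w = h w ∧ ‖h w‖ ≤ M := by
    intro w hw h hc he
    have := mem_closure_iff_nhdsWithin_neBot.1 (mem_closure_diff hD hZ hw)
    have ht : Tendsto g (𝓝[D \ Z] w) (𝓝 (h w)) :=
      (hc.tendsto.mono_left nhdsWithin_le_nhds).congr' (eventually_nhdsWithin_iff.2 he)
    exact ⟨ht.limUnder_eq, le_of_tendsto ht.norm (eventually_nhdsWithin_of_forall hM)⟩
  set Ω : Set ℂ := {z | z ∈ D ∧ ∃ h : ℂ → F, AnalyticAt ℂ h z ∧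
    ∀ᶠ w in 𝓝 z, w ∈ D \ Z → h w = g w} with hΩ
  have hgan : ∀ z ∈ D \ Z, AnalyticAt ℂ g z := fun z hz => hg.analyticAt (hZc.mem_nhds hz)
  have hsub : D \ Z ⊆ Ω := fun z hz => ⟨hz.1, g, hgan z hz, Eventually.of_forall fun _ _ => rfl⟩
  have heq : EqOn g' g (D \ Z) := fun z hz =>
    (A0 z hz.1 g (hgan z hz).continuousAt (Eventually.of_forall fun _ _ => rfl)).1
  have key : ∀ z ∈ Ω, Ω ∈ 𝓝 z ∧ DifferentiableAt ℂ g' z ∧ ‖g' z‖ ≤ M := by
    rintro z ⟨hz, h, ha, he⟩
    have h1 : ∀ᶠ w in 𝓝 z, w ∈ Ω ∧ g' w = h w := by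
      filter_upwards [hD.mem_nhds hz, ha.eventually_analyticAt, he.eventually_nhds] with w h1 h2 h3
      exact ⟨⟨h1, h, h2, h3⟩, (A0 w h1 h h2.continuousAt h3).1⟩
    refine ⟨h1.mono fun w hw => hw.1,
      ha.differentiableAt.congr_of_eventuallyEq (h1.mono fun w hw => hw.2), ?_⟩
    rw [h1.self_of_nhds.2]
    exact (A0 z hz h ha.continuousAt he).2
  have hall : D ⊆ Ω := by
    by_contra hn
    obtain ⟨z₀, h1, h2⟩ := not_subset.1 hn
    have e : D \ (D \ Ω) = Ω := by
      rw [sdiff_sdiff_right_self]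
      exact inter_eq_right.2 fun z hz => hz.1
    obtain ⟨z, hz, hev⟩ := exists_isolated (Z := D \ Ω) hD
      (hZ.mono fun w hw => by_contra fun hw' => hw.2 (hsub ⟨hw.1, hw'⟩))
      (by rw [e]; exact isOpen_iff_mem_nhds.2 fun z hz => (key z hz).1) ⟨z₀, h1, h1, h2⟩
    rw [e] at hev
    have hs : insert z Ω ∈ 𝓝 z := insert_mem_nhds_iff.2 hev
    have hs' : ∀ w ∈ insert z Ω \ {z}, w ∈ Ω := fun w hw => hw.1.resolve_left hw.2
    have hd := Complex.differentiableOn_update_limUnder_of_bddAbove (f := g') hs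
      (fun w hw => (key w (hs' w hw)).2.1.differentiableWithinAt)
      ⟨M, by rintro _ ⟨w, hw, rfl⟩; exact (key w (hs' w hw)).2.2⟩
    refine hz.2.2 ⟨hz.1, _, hd.analyticAt hs, Eventually.of_forall fun w hw => ?_⟩
    rw [Function.update_of_ne (by rintro rfl; exact hz.2.2 (hsub hw)), heq hw]
  exact ⟨g', fun z hz => (key z (hall hz)).2.1.differentiableWithinAt, heq,
    fun z hz => (key z (hall hz)).2.2⟩

end Crest.Agent.R264.P7
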