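import Crest.Agent.R264.P3.Cx
import Crest.Agent.R264.P3.Uniq

/-!
# Row 264, P7: retractions onto a complex hypersurface
-/

set_option autoImplicit false
open Set Filter Topology Metric

noncomputable section
namespace Crest.Agent.R264.P7

variable {W : Type*} [NormedAddCommGroup W] [NormedSpace ℂ W] [CompleteSpace W]

/-- The implicit function `τ` with `P (z + τ z • V) = 0`.  Hint: `ContDiffAt.implicitFunction` with
`n = ⊤` for `w ↦ P (w.1 + w.2 • V)`, as in `A.root_fun` (R264/A2.lean). -/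
theorem exists_retr {P : W → ℂ} {z0 V : W} (hP : AnalyticAt ℂ P z0) (h0 : P z0 = 0)
    (h1 : fderiv ℂ P z0 V ≠ 0) :
    ∃ τ : W → ℂ, AnalyticAt ℂ τ z0 ∧ τ z0 = 0 ∧
      (∀ᶠ w in 𝓝 (z0, (0 : ℂ)), P (w.1 + w.2 • V) = 0 ↔ τ w.1 = w.2) ∧
      (∀ᶠ z in 𝓝 z0, P (z + τ z • V) = 0) ∧ ∀ᶠ z in 𝓝 z0, P z = 0 → τ z = 0 := by
  let L : W × ℂ →L[ℂ] W :=
    ContinuousLinearMap.fst ℂ W ℂ + (ContinuousLinearMap.snd ℂ W ℂ).smulRight V
  have hL : L (z0, 0) = z0 := by simp [L]
  have hP' : AnalyticAt ℂ P (L (z0, 0)) := by rwa [hL]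
  have cdf : ContDiffAt ℂ ⊤ (fun w : W × ℂ => P (L w)) (z0, 0) :=
    (AnalyticAt.comp (f := fun w => L w) hP' (L.analyticAt _)).contDiffAt
  have hinv : (fderiv ℂ (fun w : W × ℂ => P (L w)) (z0, 0) ∘L .inr ℂ W ℂ).IsInvertible := by
    rw [fderiv_fun_comp _ hP'.differentiableAt L.differentiableAt, L.fderiv, hL]
    refine ⟨ContinuousLinearEquiv.unitsEquivAut ℂ (Units.mk0 _ h1), ?_⟩
    ext; simp [L]
  have e1 : ∀ᶠ w in 𝓝 (z0, (0 : ℂ)), P (w.1 + w.2 • V) = 0 ↔
      cdf.implicitFunction (by simp) hinv w.1 = w.2 := by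
    have := cdf.eventually_apply_eq_iff_implicitFunction (by simp) hinv
    rw [hL, h0] at this
    exact this
  refine ⟨cdf.implicitFunction (by simp) hinv,
    (cdf.contDiffAt_implicitFunction (by simp) hinv).analyticAt,
    cdf.implicitFunction_apply_self (by simp) hinv, e1, ?_, ?_⟩
  · have := cdf.eventually_apply_implicitFunction (by simp) hinv
    rw [hL, h0] at this
    exact this
  · have ht : Tendsto (fun z : W => (z, (0 : ℂ))) (𝓝 z0) (𝓝 (z0, 0)) :=
      (continuous_id.prodMk continuous_const).continuousAt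
    filter_upwards [ht.eventually e1] with z hz hz'
    exact hz.1 (by simpa using hz')

/-- A function whose slices vanish near the base point vanishes.  Hint: `H` is analytic on a
product of balls; identity theorem on the first ball
(`AnalyticOnNhd.eqOn_zero_of_preconnected_of_eventuallyEq_zero`). -/
theorem slice_zero {W' : Type*} [NormedAddCommGroup W'] [NormedSpace ℂ W'] {H : W × W' → ℂ}
    {u : W} {v : W'} (hH : AnalyticAt ℂ H (u, v))
    (h : ∀ᶠ w in 𝓝 v, ∀ᶠ u' in 𝓝 u, H (u', w) = 0) : ∀ᶠ z in 𝓝 (u, v), H z = 0 := by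
  obtain ⟨ε, hε, hb⟩ := Metric.eventually_nhds_iff_ball.1 hH.eventually_analyticAt
  have h1 : ∀ᶠ w in 𝓝 v, ∀ u' ∈ ball u ε, H (u', w) = 0 := by
    filter_upwards [h, ball_mem_nhds v hε] with w hw hwb
    have ha : AnalyticOnNhd ℂ (fun u' => H (u', w)) (ball u ε) := fun u' hu' =>
      AnalyticAt.comp (f := fun u' => (u', w))
        (hb (u', w) (by rw [← ball_prod_same]; exact ⟨hu', hwb⟩))
        (analyticAt_id.prod analyticAt_const)
    exact ha.eqOn_zero_of_preconnected_of_eventuallyEq_zero (convex_ball u ε).isPreconnected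
      (mem_ball_self hε) hw
  filter_upwards [prod_mem_nhds (ball_mem_nhds u hε) h1] with z hz
  exact hz.2 z.1 hz.1

/-- Identity theorem on a complex hypersurface.  Hint: `exists_retr`; `H z = h (z + τ z • V)` is
analytic on a ball around `z0`; if `z1` is in the ball and `P z1 = 0` then `τ z1 = 0`, so
`z + τ z • V → z1` as `z → z1` and `H` vanishes near `z1`, hence on the ball. -/
theorem hyp_propagate {P h : W → ℂ} {z0 V : W} (hP : AnalyticAt ℂ P z0) (hh : AnalyticAt ℂ h z0)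
    (h0 : P z0 = 0) (h1 : fderiv ℂ P z0 V ≠ 0) :
    ∀ᶠ z1 in 𝓝 z0, P z1 = 0 → (∀ᶠ z in 𝓝 z1, P z = 0 → h z = 0) →
      ∀ᶠ z in 𝓝 z0, P z = 0 → h z = 0 := by
  obtain ⟨τ, hτ, hτ0, -, e2, e3⟩ := exists_retr hP h0 h1
  have hR : AnalyticAt ℂ (fun z => z + τ z • V) z0 := analyticAt_id.add (hτ.smul analyticAt_const)
  have hH : AnalyticAt ℂ (fun z => h (z + τ z • V)) z0 :=
    AnalyticAt.comp (f := fun z => z + τ z • V) (by simpa [hτ0] using hh) hR
  obtain ⟨ε, hε, hb⟩ := Metric.eventually_nhds_iff_ball.1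
    (hH.eventually_analyticAt.and (hR.eventually_analyticAt.and (e2.and e3)))
  filter_upwards [ball_mem_nhds z0 hε] with z1 hz1 hP1 hz
  have ht : Tendsto (fun z => z + τ z • V) (𝓝 z1) (𝓝 z1) := by
    have := (hb z1 hz1).2.1.continuousAt.tendsto
    rwa [(hb z1 hz1).2.2.2 hP1, zero_smul, add_zero] at this
  have hz' : (fun z => h (z + τ z • V)) =ᶠ[𝓝 z1] 0 := by
    filter_upwards [ht.eventually hz, isOpen_ball.mem_nhds hz1] with z h2 h3
    exact h2 (hb z h3).2.2.1
  have ha : AnalyticOnNhd ℂ (fun z => h (z + τ z • V)) (ball z0 ε) := fun z hz => (hb z hz).1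
  have hall := ha.eqOn_zero_of_preconnected_of_eventuallyEq_zero
    (convex_ball z0 ε).isPreconnected hz1 hz'
  filter_upwards [ball_mem_nhds z0 hε] with z h2 h3
  have := hall h2
  simp only [(hb z h2).2.2.2 h3, zero_smul, add_zero] at this
  exact this

/-- A field that is tangent to the complexified hypersurface has its complex integral curves in
the real hypersurface.  Hint: `exists_retr` with `V = (0, e)`.  Differentiating
`P (z + τ z • V) = 0` along `(Y z.1, 0)` gives `fderiv τ z (Y z.1, 0) = 0` near the base point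
(`(z + τ z • V).1 = z.1`, and `fderiv P · V ≠ 0` near the base point), so `ζ ↦ τ (f ζ, v)` is
constant on a small ball, for all `v` near `star a`.  Hence `P (f ζ, v) = 0 ↔ P (a, v) = 0`.  Use it
for `v = star a`, then `herm` (`sw (f ζ, star a) = (a, star (f ζ))`), then for `v = star (f ζ)`. -/
theorem flow_inv {n : ℕ} {P : CN n × CN n → ℂ} {a e : CN n} (hP : AnalyticAt ℂ P (a, star a))
    (herm : ∀ z, P (sw z) = star (P z)) (h0 : P (a, star a) = 0)
    (h1 : fderiv ℂ P (a, star a) (0, e) ≠ 0) {Y : CN n → CN n}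
    (hY : ∀ᶠ z in 𝓝 (a, star a), P z = 0 → fderiv ℂ P z (Y z.1, 0) = 0) {f : ℂ → CN n} {ζ0 : ℂ}
    (hf0 : f ζ0 = a) (hf : ∀ᶠ ζ in 𝓝 ζ0, HasDerivAt f (Y (f ζ)) ζ) :
    ∀ᶠ ζ in 𝓝 ζ0, P (f ζ, star (f ζ)) = 0 := by
  obtain ⟨τ, hτ, hτ0, -, e2, e3⟩ := exists_retr hP h0 h1
  have hR : Tendsto (fun z : CN n × CN n => z + τ z • ((0, e) : CN n × CN n)) (𝓝 (a, star a))
      (𝓝 (a, star a)) := by
    have h2 : ContinuousAt (fun z : CN n × CN n => z + τ z • ((0, e) : CN n × CN n)) (a, star a) :=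
      continuousAt_id.add (hτ.continuousAt.smul continuousAt_const)
    have := h2.tendsto
    rwa [hτ0, zero_smul, add_zero] at this
  have hne : ∀ᶠ z in 𝓝 (a, star a), fderiv ℂ P z (0, e) ≠ 0 :=
    (analyticAt_fderiv_apply hP _).continuousAt.eventually_ne h1
  have key : ∀ᶠ z in 𝓝 (a, star a), DifferentiableAt ℂ τ z ∧ fderiv ℂ τ z (Y z.1, 0) = 0 ∧
      (P z = 0 ↔ τ z = 0) := by
    filter_upwards [hτ.eventually_analyticAt, e2.eventually_nhds, e3, hR.eventually hY,
      hR.eventually hne, hR.eventually hP.eventually_analyticAt] with z a1 a2 a3 a4 a5 a6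
    refine ⟨a1.differentiableAt, ?_, a3, fun h => ?_⟩
    · have d1 : HasFDerivAt (fun z : CN n × CN n => z + τ z • ((0, e) : CN n × CN n))
          (ContinuousLinearMap.id ℂ _ + (fderiv ℂ τ z).smulRight (0, e)) z :=
        (hasFDerivAt_id z).add (a1.differentiableAt.hasFDerivAt.smul_const _)
      have d2 := (a6.differentiableAt.hasFDerivAt.comp z d1).congr_of_eventuallyEq
        (f₁ := fun _ => (0 : ℂ)) (a2.mono fun w hw => hw.symm)
      have d3 := congrArg (fun L : CN n × CN n →L[ℂ] ℂ => L (Y z.1, 0))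
        (d2.unique (hasFDerivAt_const (0 : ℂ) z))
      have d4 := a4 a2.self_of_nhds
      simp only [Prod.fst_add, Prod.smul_fst, smul_zero, add_zero] at d4
      simp only [ContinuousLinearMap.comp_apply, add_apply, ContinuousLinearMap.id_apply,
        ContinuousLinearMap.smulRight_apply, map_add, map_smul, d4, zero_add, smul_eq_mul,
        zero_apply] at d3
      exact (mul_eq_zero.1 d3).resolve_right a5
    · have := a2.self_of_nhds
      rwa [h, zero_smul, add_zero] at this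
  rw [nhds_prod_eq, eventually_prod_iff] at key
  obtain ⟨pa, hpa, pb, hpb, hk⟩ := key
  have hc : Tendsto f (𝓝 ζ0) (𝓝 a) := hf0 ▸ hf.self_of_nhds.continuousAt.tendsto
  have hc' : Tendsto (fun ζ => star (f ζ)) (𝓝 ζ0) (𝓝 (star a)) := hc.star
  obtain ⟨δ, hδ, hb⟩ := Metric.eventually_nhds_iff_ball.1
    (hf.and ((hc.eventually hpa).and (hc'.eventually hpb)))
  have hconst : ∀ v, pb v → ∀ ζ ∈ ball ζ0 δ, τ (f ζ, v) = τ (a, v) := by
    intro v hv ζ hζ
    have hd : ∀ ζ ∈ ball ζ0 δ, HasDerivAt (fun ζ => τ (f ζ, v)) 0 ζ := by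
      intro ζ hζ
      obtain ⟨b1, b2, -⟩ := hk (hb ζ hζ).2.1 hv
      have := b1.hasFDerivAt.comp_hasDerivAt ζ ((hb ζ hζ).1.prodMk (hasDerivAt_const ζ v))
      rw [b2] at this
      exact this
    rw [← hf0]
    exact isOpen_ball.is_const_of_deriv_eq_zero (f := fun ζ => τ (f ζ, v))
      (convex_ball ζ0 δ).isPreconnected
      (fun ζ hζ => (hd ζ hζ).differentiableAt.differentiableWithinAt)
      (fun ζ hζ => (hd ζ hζ).deriv) hζ (mem_ball_self hδ)
  filter_upwards [ball_mem_nhds ζ0 hδ] with ζ hζ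
  obtain ⟨-, c1, c2⟩ := hb ζ hζ
  have s1 : P (f ζ, star a) = 0 :=
    (hk c1 hpb.self_of_nhds).2.2.2 ((hconst _ hpb.self_of_nhds ζ hζ).trans hτ0)
  have s2 : P (a, star (f ζ)) = 0 := by
    have := herm (f ζ, star a)
    rw [s1, star_zero] at this
    simpa [sw] using this
  exact (hk c1 c2).2.2.2 ((hconst _ c2 ζ hζ).trans ((hk hpa.self_of_nhds c2).2.2.1 s2))

end Crest.Agent.R264.P7
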