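import Crest.Agent.R264.P7.StepA
import Crest.Agent.R264.P7.Branch

/-!
# Row 264, P7: branches of `η` are tangent to the good sides
-/

set_option autoImplicit false
open Set Filter Topology Metric

noncomputable section
namespace Crest.Agent.R264.P7

open A MvPolynomial

variable {N n : ℕ} {U : Set (CN N)} {F : AlgFrame n U}

/-- Hint: `fderiv_cpol_fst`, `IsSect.sum_xi`, `dx_sum`. -/
theorem Eta.fderiv_cpol_Y (e : Eta F) {ch : Chart n F.V} (hs : F.IsSect ch) (ρ : P2 N)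
    (ψ : CN n → CN n) {z : CN n × CN n} (h1 : z.1 ∈ ch.s) (h2 : star z.2 ∈ ch.s) :
    fderiv ℂ (cpol ρ ch.c) z (e.Y ψ z.1, 0) =
      eval z.1 e.Δ * ∑ i, ψ z.1 i * cpol (hQ F ρ i) ch.c z := by
  rw [fderiv_cpol_fst ρ (ch.an _ h1) (ch.an _ h2)]
  have e1 : e.Y ψ z.1 = eval z.1 F.D • (eval z.1 e.Δ • ψ z.1) := by
    rw [Eta.Y, smul_smul, mul_comm]
  rw [e1, ← hs.sum_xi h1, dx_sum, Finset.mul_sum]
  refine Finset.sum_congr rfl fun i _ => ?_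
  simp only [Pi.smul_apply, smul_eq_mul, cpol, mul_assoc]

/-- Hint: `hyp_propagate` for `P = cpol ρ ch.c`, `h z = ∑ i, ψ z.1 i * cpol (hQ F ρ i) ch.c z`,
`V = (ν, 0)` (`GoodSide.exists_fderiv_ne`); choose `W` so small that for `x1, y1 ∈ W ∩ V` the point
`z1 = (F.pr x1, star (F.pr y1))` is in the neighbourhood given by `hyp_propagate`, `x1 = ch.c (pr x1)`,
`y1 = ch.c (pr y1)`, and `h` holds near `x1`; `e.rel`, `chart_of_rel`. -/
theorem Eta.tanc (e : Eta F) {ch : Chart n F.V} (hs : F.IsSect ch) {u : CN n} (hu : u ∈ ch.s)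
    {ρ : P2 N} (hg : F.GoodSide (ch.c u) ρ) {ψ : CN n → CN n} (hψ : AnalyticAt ℂ ψ u)
    (h : ∀ᶠ x in 𝓝 (ch.c u), x ∈ F.V → 0 < rv ρ x → ∀ i, e.η i x = ψ (F.pr x) i) :
    ∀ᶠ z in 𝓝 (u, star u), cpol ρ ch.c z = 0 → fderiv ℂ (cpol ρ ch.c) z (e.Y ψ z.1, 0) = 0 := by
  have hu' : star (star u) ∈ ch.s := by rwa [star_star]
  have hP : ∀ Q : P2 N, AnalyticAt ℂ (cpol Q ch.c) (u, star u) := fun Q =>
    cpol_analyticAt Q (z := (u, star u)) (ch.an _ hu) (ch.an _ hu')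
  have hh : AnalyticAt ℂ (fun z : CN n × CN n => ∑ i, ψ z.1 i * cpol (hQ F ρ i) ch.c z)
      (u, star u) := by
    refine Finset.analyticAt_fun_sum _ fun i _ => AnalyticAt.mul ?_ (hP _)
    have a1 : AnalyticAt ℂ (fun z : CN n × CN n => ψ z.1) (u, star u) :=
      AnalyticAt.comp (f := Prod.fst) hψ analyticAt_fst
    exact ((ContinuousLinearMap.proj (R := ℂ) (φ := fun _ : Fin n => ℂ) i).analyticAt _).comp a1
  have h0 : cpol ρ ch.c (u, star u) = 0 := by rw [cpol_real hg.herm, hg.zero]; rfl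
  obtain ⟨ν, hν⟩ := hg.exists_fderiv_ne hs hu
  have h1 := hyp_propagate (hP ρ) hh h0 hν
  have hpr : Continuous F.pr := F.differentiable_pr.continuous
  have t1 : Tendsto (fun x : CN N × CN N => (F.pr x.1, star (F.pr x.2))) (𝓝 (ch.c u, ch.c u))
      (𝓝 (u, star u)) := by
    have : Continuous fun x : CN N × CN N => (F.pr x.1, star (F.pr x.2)) := by fun_prop
    simpa only [(hs.pr_c hu).1] using this.tendsto (ch.c u, ch.c u)
  have h2 := t1.eventually h1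
  rw [nhds_prod_eq (x := ch.c u) (y := ch.c u)] at h2
  obtain ⟨pa, ha, pb, hb, hab⟩ := eventually_prod_iff.1 h2
  have h3 := ch.eventually_mem hu
  rw [hs.1] at h3
  obtain ⟨x1, hx1, y1, hy1, hxV, hyV, hpos, hzero, hrel⟩ := e.rel _ ρ hg _
    (ha.and (hb.and (h3.and h.eventually_nhds)))
  obtain ⟨x2, x3⟩ := hx1.2.2.1 hxV
  obtain ⟨y2, y3⟩ := hy1.2.2.1 hyV
  have y2' : star (star (F.pr y1)) ∈ ch.s := by rwa [star_star]
  have h4 := chart_of_rel (η := e.η) (ρ := ρ) (z1 := (F.pr x1, star (F.pr y1))) x2 y2'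
    (by simpa only [star_star, x3, y3] using hrel)
  have t2 : Tendsto (fun z : CN n × CN n => ch.c z.1) (𝓝 (F.pr x1, star (F.pr y1))) (𝓝 x1) := by
    have := ((ch.an _ x2).continuousAt.tendsto).comp
      (continuous_fst.tendsto (F.pr x1, star (F.pr y1)))
    rwa [x3] at this
  have h5 : ∀ᶠ z in 𝓝 (F.pr x1, star (F.pr y1)), z.1 ∈ ch.s :=
    (continuous_fst.tendsto (F.pr x1, star (F.pr y1))).eventually (ch.s_open.mem_nhds x2)
  have h6 : ∀ᶠ x in 𝓝 x1, 0 < rv ρ x :=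
    (continuous_rv ρ).continuousAt.eventually_const_lt hpos
  have h7 := hab hx1.1 hy1.2.1 (by simp only [cpol, star_star, x3, y3]; exact hzero) (by
    filter_upwards [h4, h5, t2.eventually hx1.2.2.2, t2.eventually h6] with z a1 a2 a3 a4 a5
    rw [← a1 a5]
    refine Finset.sum_congr rfl fun i _ => ?_
    rw [a3 (ch.maps a2) a4 i, (hs.pr_c a2).1])
  have h8 : ∀ᶠ z in 𝓝 (u, star u), z.1 ∈ ch.s :=
    (continuous_fst.tendsto (u, star u)).eventually (ch.s_open.mem_nhds hu)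
  have h9 : ∀ᶠ z in 𝓝 (u, star u), star z.2 ∈ ch.s :=
    ((continuous_star.comp continuous_snd).tendsto (u, star u)).eventually
      (ch.s_open.mem_nhds hu')
  filter_upwards [h7, h8, h9] with z a1 a2 a3 a4
  rw [e.fderiv_cpol_Y hs ρ ψ a2 a3, a1 a4, mul_zero]

theorem Tan_cont {g : CN N → ℂ} (h : Hol U g) : ContinuousOn g U := fun x hx => by
  obtain ⟨O, hO, hxO, Φ, hΦ, e⟩ := h x hx
  refine ((hΦ.continuousOn.continuousAt (hO.mem_nhds hxO)).continuousWithinAt).congr_of_eventuallyEq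
    ?_ (e x hx hxO)
  filter_upwards [self_mem_nhdsWithin, mem_nhdsWithin_of_mem_nhds (hO.mem_nhds hxO)] with y h1 h2
  exact e y h1 h2

/-- One side.  Hint: `GoodSide.conn` with a neighbourhood `W` in which the positive side lies in
`U` and `F.pr` maps to `B`; `Br.eqOn` on the positive side; `tanc`; `flow_inv` (with `e = star ν`,
`fderiv_sw`); `cpol_real`. -/
theorem Eta.not_good_pos (e : Eta F) {ch : Chart n F.V} (hs : F.IsSect ch) {ψ : CN n → CN n}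
    {B : Set (CN n)} (hB : Br e.q ψ B) (hBs : B ⊆ ch.s) {f : ℂ → CN n} {ζ0 : ℂ}
    (hf : ∀ᶠ ζ in 𝓝 ζ0, HasDerivAt f (e.Y ψ (f ζ)) ζ) (h0 : f ζ0 ∈ B) {ρ : P2 N}
    (hfr : ∃ᶠ ζ in 𝓝 ζ0, 0 < rv ρ (ch.c (f ζ)) ∧ ∀ i, e.η i (ch.c (f ζ)) = ψ (f ζ) i) :
    ¬ F.GoodSide (ch.c (f ζ0)) ρ := by
  intro hg
  have hu := hBs h0
  have hu' : star (star (f ζ0)) ∈ ch.s := by rwa [star_star]
  have hpr : Continuous F.pr := F.differentiable_pr.continuous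
  have hW : ∀ᶠ x in 𝓝 (ch.c (f ζ0)), F.pr x ∈ B :=
    hpr.continuousAt.eventually (by rw [(hs.pr_c hu).1]; exact hB.opn.mem_nhds h0)
  obtain ⟨O, hO, hpO, hOW, hC, -⟩ := hg.conn (hW.and hg.eventually_mem)
  have hCU : ∀ x ∈ {x | x ∈ O ∩ F.V ∧ 0 < rv ρ x}, x ∈ U := fun x hx =>
    (hOW hx.1.1).2 hx.1.2 hx.2
  have tf : Tendsto f (𝓝 ζ0) (𝓝 (f ζ0)) := hf.self_of_nhds.continuousAt
  have tc : Tendsto (fun ζ => ch.c (f ζ)) (𝓝 ζ0) (𝓝 (ch.c (f ζ0))) :=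
    (ch.an _ hu).continuousAt.tendsto.comp tf
  have hfs : ∀ᶠ ζ in 𝓝 ζ0, f ζ ∈ ch.s := tf.eventually (ch.s_open.mem_nhds hu)
  obtain ⟨ζ1, ⟨a1, a2⟩, a3, a4⟩ :=
    (hfr.and_eventually (hfs.and (tc.eventually (hO.mem_nhds hpO)))).exists
  have key := hB.eqOn hC (t := F.pr) (φ := fun x i => e.η i x) hpr.continuousOn
    (continuousOn_pi.2 fun i => (Tan_cont (e.hol i)).mono hCU) (fun x hx => (hOW hx.1.1).1)
    (fun x hx i => e.root x (hCU x hx) i) (x0 := ch.c (f ζ1)) ⟨⟨a4, ch.maps a3⟩, a1⟩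
    (by rw [(hs.pr_c a3).1]; exact funext a2)
  have h1 := e.tanc hs hu hg (hB.an _ h0) (by
    filter_upwards [hO.mem_nhds hpO] with x b1 b2 b3 i
    exact congrFun (key x ⟨⟨b1, b2⟩, b3⟩) i)
  have hP : AnalyticAt ℂ (cpol ρ ch.c) (f ζ0, star (f ζ0)) :=
    cpol_analyticAt ρ (z := (f ζ0, star (f ζ0))) (ch.an _ hu) (ch.an _ hu')
  obtain ⟨ν, hν⟩ := hg.exists_fderiv_ne hs hu
  have h2 := fderiv_sw hP (.of_forall (cpol_sw hg.herm ch.c)) (ν, 0)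
  rw [sw_real] at h2
  have h3 : fderiv ℂ (cpol ρ ch.c) (f ζ0, star (f ζ0)) (0, star ν) ≠ 0 := by
    have e1 : sw (ν, (0 : CN n)) = (0, star ν) := by simp [sw]
    rw [← e1, h2]
    exact star_ne_zero.2 hν
  have h4 := flow_inv hP (cpol_sw hg.herm ch.c) (by rw [cpol_real hg.herm, hg.zero]; rfl) h3 h1
    rfl hf
  obtain ⟨ζ, b1, b2⟩ := (hfr.and_eventually h4).exists
  rw [cpol_real hg.herm] at b2
  exact b1.1.ne' (by exact_mod_cast b2)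

/-- A leaf that comes from `U` along the branch does not hit a good point.  Hint: near a good
point, points of `U` have `rv ρ ≠ 0`; `Frequently` splits into the two signs; `GoodSide.neg`,
`rv_neg`, `not_good_pos`. -/
theorem Eta.not_good (e : Eta F) {ch : Chart n F.V} (hs : F.IsSect ch) {ψ : CN n → CN n}
    {B : Set (CN n)} (hB : Br e.q ψ B) (hBs : B ⊆ ch.s) {f : ℂ → CN n} {ζ0 : ℂ}
    (hf : ∀ᶠ ζ in 𝓝 ζ0, HasDerivAt f (e.Y ψ (f ζ)) ζ) (h0 : f ζ0 ∈ B)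
    (hfr : ∃ᶠ ζ in 𝓝 ζ0, ch.c (f ζ) ∈ U ∧ ∀ i, e.η i (ch.c (f ζ)) = ψ (f ζ) i) :
    ch.c (f ζ0) ∉ F.Gd := by
  rintro ⟨ρ, hg⟩
  have hu := hBs h0
  have tf : Tendsto f (𝓝 ζ0) (𝓝 (f ζ0)) := hf.self_of_nhds.continuousAt
  have tc : Tendsto (fun ζ => ch.c (f ζ)) (𝓝 ζ0) (𝓝 (ch.c (f ζ0))) :=
    (ch.an _ hu).continuousAt.tendsto.comp tf
  obtain ⟨O, hO, hpO, -, h2, -⟩ := hg.nbhd
  have h3 : ∃ᶠ ζ in 𝓝 ζ0, (0 < rv ρ (ch.c (f ζ)) ∧ ∀ i, e.η i (ch.c (f ζ)) = ψ (f ζ) i) ∨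
      (ch.c (f ζ) ∈ U ∧ rv ρ (ch.c (f ζ)) < 0 ∧ ∀ i, e.η i (ch.c (f ζ)) = ψ (f ζ) i) := by
    refine (hfr.and_eventually (tc.eventually (hO.mem_nhds hpO))).mono fun ζ h => ?_
    rcases lt_trichotomy (rv ρ (ch.c (f ζ))) 0 with h4 | h4 | h4
    · exact Or.inr ⟨h.1.1, h4, h.1.2⟩
    · exact (h2 _ ⟨h.2, F.U_subset h.1.1⟩ h4 h.1.1).elim
    · exact Or.inl ⟨h4, h.1.2⟩
  rcases frequently_or_distrib.1 h3 with h4 | h4
  · exact e.not_good_pos hs hB hBs hf h0 h4 hg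
  · refine e.not_good_pos hs hB hBs hf h0 (ρ := -ρ) (h4.mono fun ζ h => ⟨?_, h.2.2⟩) (hg.neg ?_)
    · rw [rv_neg]; linarith [h.2.1]
    · exact mem_closure_iff_frequently.2 (tc.frequently (h4.mono fun ζ h => ⟨h.1, h.2.1⟩))

end Crest.Agent.R264.P7
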