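import Crest.Agent.R264.P7.Retr
import Crest.Agent.R264.SCV2

/-!
# Row 264, P7: uniqueness on a wedge in the complexified hypersurface
-/

set_option autoImplicit false
open Set Filter Topology Metric

noncomputable section
namespace Crest.Agent.R264.P7

/-- Half-disc uniqueness.  Hint: `zero_boundary` (R264/SCV2.lean) for `Ω` = the half disc (at points
of the ball with `im < 0` the filter `𝓝[Ω] x` is `⊥`), then the identity theorem on the convex
set `Ω`. -/
theorem half_disc {R : ℝ} {f : ℂ → ℂ} (hf : DifferentiableOn ℂ f {ζ | ζ ∈ ball 0 R ∧ 0 < ζ.im})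
    (h0 : ∀ x : ℝ, |x| < R → Tendsto f (𝓝[{ζ | ζ ∈ ball 0 R ∧ 0 < ζ.im}] (x : ℂ)) (𝓝 0)) :
    ∀ ζ ∈ ball (0 : ℂ) R, 0 < ζ.im → f ζ = 0 := by
  intro ζ hζ hζi
  set Ω : Set ℂ := {ζ | ζ ∈ ball 0 R ∧ 0 < ζ.im} with hΩdef
  have hΩo : IsOpen Ω := isOpen_ball.inter (isOpen_lt continuous_const Complex.continuous_im)
  have hcl : closure Ω ⊆ {x : ℂ | 0 ≤ x.im} :=
    closure_minimal (fun x hx => le_of_lt hx.2) (isClosed_le continuous_const Complex.continuous_im)
  have hconv : Convex ℝ Ω := (convex_ball (0 : ℂ) R).inter (convex_halfSpace_im_gt 0)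
  obtain ⟨Ω', hΩ'o, ⟨p, hp⟩, hsub, hΩ'⟩ := zero_boundary (b := (0 : ℂ)) (r := R) hΩo
    (fun x hx => hx.1) ⟨ζ, hζ, hζi⟩ (by
      intro h
      have h1 : (starRingEnd ℂ) ζ ∈ ball (0 : ℂ) R := by simpa using hζ
      have h2 := hcl (h h1)
      simp only [mem_ofPred_eq, Complex.conj_im] at h2
      linarith)
  have hz := hΩ' f hf (by
    intro x hx hxΩ
    have hxi : x.im ≤ 0 := by
      by_contra hc
      exact hxΩ ⟨hx, not_le.1 hc⟩
    rcases hxi.eq_or_lt with h | h
    · have hxr : x = (x.re : ℂ) := by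
        apply Complex.ext <;> simp [h]
      have hlt : |x.re| < R := lt_of_le_of_lt (Complex.abs_re_le_norm x) (by simpa using hx)
      rw [hxr]
      exact h0 x.re hlt
    · have : 𝓝[Ω] x = ⊥ := by
        rw [← notMem_closure_iff_nhdsWithin_eq_bot]
        intro hc
        exact absurd (hcl hc) (not_le.2 h)
      rw [this]
      exact tendsto_bot)
  have han : AnalyticOnNhd ℂ f Ω := hf.analyticOnNhd hΩo
  have hev : f =ᶠ[𝓝 p] 0 := by
    filter_upwards [hΩ'o.mem_nhds hp] with y hy using hz y hy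
  exact han.eqOn_zero_of_preconnected_of_eventuallyEq_zero hconv.isPreconnected (hsub hp) hev
    ⟨hζ, hζi⟩

/-- A cone of positivity.  Hint: strict differentiability gives
`|g (α, β) - g (α, 0) - L (0, β)| ≤ ε ‖β‖` near `(a, 0)`; take `ε = L (0, β0) / (2 ‖β0‖)` and
`C = {β | ε ‖β‖ < L (0, β)}`. -/
theorem exists_cone {E : Type*} [NormedAddCommGroup E] [NormedSpace ℝ E] {g : E × E → ℝ}
    {L : E × E →L[ℝ] ℝ} {a β0 : E} (hg : HasStrictFDerivAt g L (a, 0))
    (h0 : ∀ᶠ α in 𝓝 a, g (α, 0) = 0) (hL : 0 < L (0, β0)) :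
    ∃ C : Set E, IsOpen C ∧ β0 ∈ C ∧ (∀ β ∈ C, ∀ t : ℝ, 0 < t → t • β ∈ C) ∧
      ∀ᶠ z in 𝓝 (a, (0 : E)), z.2 ∈ C → 0 < g z := by
  have hβ : β0 ≠ 0 := by
    rintro rfl
    have : ((0 : E), (0 : E)) = 0 := rfl
    rw [this, map_zero] at hL
    exact lt_irrefl _ hL
  have hβn : 0 < ‖β0‖ := norm_pos_iff.2 hβ
  set ε : ℝ := L (0, β0) / (2 * ‖β0‖) with hε
  have hε0 : 0 < ε := by positivity
  refine ⟨{β | ε * ‖β‖ < L (0, β)}, isOpen_lt (by fun_prop) (by fun_prop), ?_, ?_, ?_⟩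
  · show ε * ‖β0‖ < L (0, β0)
    have : ε * ‖β0‖ = L (0, β0) / 2 := by rw [hε]; field_simp
    rw [this]; linarith
  · intro β hβ t ht
    show ε * ‖t • β‖ < L (0, t • β)
    have e : ((0 : E), t • β) = t • ((0 : E), β) := by simp
    have hβ' : ε * ‖β‖ < L (0, β) := hβ
    rw [e, map_smul, norm_smul, Real.norm_of_nonneg ht.le, smul_eq_mul]
    nlinarith
  · have ht : Tendsto (fun z : E × E => (z, (z.1, (0 : E)))) (𝓝 (a, 0)) (𝓝 ((a, 0), (a, 0))) :=
      Continuous.tendsto' (by fun_prop) _ _ rfl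
    have h1 := ht.eventually (hg.isLittleO.def hε0)
    have h2 : ∀ᶠ z : E × E in 𝓝 (a, 0), g (z.1, 0) = 0 :=
      (continuous_fst.tendsto' (a, (0 : E)) a rfl).eventually h0
    filter_upwards [h1, h2] with z h1 h2 hz
    have hz' : ε * ‖z.2‖ < L (0, z.2) := hz
    have e : z - (z.1, (0 : E)) = (0, z.2) := by ext <;> simp
    simp only [h2, e, Prod.norm_def, norm_zero, sub_zero, Real.norm_eq_abs] at h1
    rw [max_eq_right (norm_nonneg _)] at h1
    have := (abs_le.1 h1).1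
    linarith

/-- The symmetric retraction.  Hint: normalise `ν` so that `fderiv P z0 (ν, 0) = 1`, put
`V = (ν, star ν)`, `fderiv P z0 V = 2` (`fderiv_sw`), `exists_retr`; `τ (sw z) = star (τ z)` near
`z0` by uniqueness.  With `G (α, β) = (α, star α) + I • (β, star β)` the real function
`g (α, β) = (P ((R (G (α, β))).1, star (R (G (α, β))).1)).re`, `R z = z + τ z • V`, vanishes for
`β = 0` and its derivative at `(a, 0)` in the direction `(0, β)` is `-2 Im (fderiv P z0 (β, 0))`,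
positive for `β0 = -I • ν`; apply `exists_cone`. -/
theorem exists_sym_retr {n : ℕ} {P : CN n × CN n → ℂ} {a ν : CN n}
    (hP : AnalyticAt ℂ P (a, star a)) (herm : ∀ z, P (sw z) = star (P z))
    (h0 : P (a, star a) = 0) (h1 : fderiv ℂ P (a, star a) (ν, 0) ≠ 0) :
    ∃ (V : CN n × CN n) (τ : CN n × CN n → ℂ) (C : Set (CN n)), AnalyticAt ℂ τ (a, star a) ∧
      τ (a, star a) = 0 ∧
      (∀ᶠ w in 𝓝 ((a, star a), (0 : ℂ)), P (w.1 + w.2 • V) = 0 ↔ τ w.1 = w.2) ∧
      (∀ᶠ α in 𝓝 a, ∃ b : CN n, (α, star α) + τ (α, star α) • V = (b, star b)) ∧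
      IsOpen C ∧ C.Nonempty ∧ (∀ β ∈ C, ∀ t : ℝ, 0 < t → t • β ∈ C) ∧
      ∀ᶠ z in 𝓝 (a, (0 : CN n)), z.2 ∈ C → ∀ y : CN n × CN n,
        y = (z.1, star z.1) + Complex.I • (z.2, star z.2) →
          0 < (P ((y + τ y • V).1, star (y + τ y • V).1)).re := by
  obtain ⟨ν, hν⟩ : ∃ ν' : CN n, fderiv ℂ P (a, star a) (ν', 0) = 1 := by
    refine ⟨(fderiv ℂ P (a, star a) (ν, 0))⁻¹ • ν, ?_⟩
    have e : (((fderiv ℂ P (a, star a) (ν, 0))⁻¹ • ν, 0) : CN n × CN n) =
        (fderiv ℂ P (a, star a) (ν, 0))⁻¹ • (ν, 0) := by simp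
    rw [e, map_smul, smul_eq_mul, inv_mul_cancel₀ h1]
  have hν' : fderiv ℂ P (a, star a) (0, star ν) = 1 := by
    have := fderiv_sw hP (Eventually.of_forall herm) (ν, 0)
    rw [sw_real, hν] at this
    simpa [sw] using this
  set V : CN n × CN n := (ν, star ν) with hV
  have hPV : fderiv ℂ P (a, star a) V = 2 := by
    have e : V = (ν, 0) + (0, star ν) := by simp [hV]
    rw [e, map_add, hν, hν']; norm_num
  obtain ⟨τ, hτ, hτ0, hiff, hR, -⟩ := exists_retr hP h0 (V := V) (by rw [hPV]; norm_num)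
  have hsw : ∀ (z : CN n × CN n) (t : ℂ), sw (z + t • V) = sw z + star t • V := by
    intro z t
    simp [sw, hV]
  have hτs : ∀ᶠ z in 𝓝 (a, star a), τ (sw z) = star (τ z) := by
    have ht : Tendsto (fun z : CN n × CN n => (sw z, star (τ z))) (𝓝 (a, star a))
        (𝓝 ((a, star a), (0 : ℂ))) := by
      refine Tendsto.prodMk_nhds ?_ ?_
      · exact continuous_sw.tendsto' _ _ (sw_real a)
      · have := (continuous_star.tendsto (τ (a, star a))).comp hτ.continuousAt
        rw [hτ0, star_zero] at this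
        exact this
    filter_upwards [ht.eventually hiff, hR] with z h1 h2
    refine h1.1 ?_
    show P (sw z + star (τ z) • V) = 0
    rw [← hsw, herm, h2, star_zero]
  have hD : Tendsto (fun α : CN n => (α, star α)) (𝓝 a) (𝓝 (a, star a)) :=
    Continuous.tendsto' (by fun_prop) _ _ rfl
  have hreal : ∀ᶠ α in 𝓝 a, ∃ b : CN n, (α, star α) + τ (α, star α) • V = (b, star b) := by
    filter_upwards [hD.eventually hτs] with α hα
    rw [sw_real] at hα
    refine ⟨α + τ (α, star α) • ν, ?_⟩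
    simp only [hV, Prod.smul_mk, Prod.mk_add_mk, star_add, star_smul, ← hα]
  -- the real function
  let D : CN n →L[ℝ] CN n × CN n :=
    (ContinuousLinearMap.id ℝ (CN n)).prod (starL' ℝ : CN n ≃L[ℝ] CN n).toContinuousLinearMap
  have hDa : ∀ x, D x = (x, star x) := fun x => rfl
  let G : CN n × CN n →L[ℝ] CN n × CN n :=
    D.comp (ContinuousLinearMap.fst ℝ _ _) + Complex.I • D.comp (ContinuousLinearMap.snd ℝ _ _)
  have hGa : ∀ z, G z = (z.1, star z.1) + Complex.I • (z.2, star z.2) := fun z => rfl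
  have hG0 : ∀ α, G (α, 0) = (α, star α) := fun α => by simp [hGa]
  let R' : CN n × CN n →L[ℂ] CN n × CN n :=
    ContinuousLinearMap.id ℂ _ + (fderiv ℂ τ (a, star a)).smulRight V
  have hRd : HasStrictFDerivAt (fun z => z + τ z • V) R' (a, star a) :=
    (hasStrictFDerivAt_id _).add (hτ.hasStrictFDerivAt.smul_const V)
  have hR0 : (a, star a) + τ (a, star a) • V = (a, star a) := by rw [hτ0, zero_smul, add_zero]
  have hτ' : ∀ w, fderiv ℂ P (a, star a) (R' w) = 0 := by
    have hP' : HasFDerivAt P (fderiv ℂ P (a, star a)) ((a, star a) + τ (a, star a) • V) := by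
      rw [hR0]; exact hP.differentiableAt.hasFDerivAt
    have hc := hP'.comp (a, star a) hRd.hasFDerivAt
    have hz : HasFDerivAt (P ∘ fun z => z + τ z • V) (0 : CN n × CN n →L[ℂ] ℂ) (a, star a) :=
      (hasFDerivAt_const (0 : ℂ) (a, star a)).congr_of_eventuallyEq hR
    intro w
    have := congrArg (fun L : CN n × CN n →L[ℂ] ℂ => L w) (hc.unique hz)
    simpa using this
  let g : CN n × CN n → ℝ := fun z =>
    (P ((G z + τ (G z) • V).1, star (G z + τ (G z) • V).1)).re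
  let L : CN n × CN n →L[ℝ] ℝ := Complex.reCLM.comp
    (((fderiv ℂ P (a, star a)).restrictScalars ℝ).comp
      ((D.comp (ContinuousLinearMap.fst ℝ _ _)).comp ((R'.restrictScalars ℝ).comp G)))
  have hg : HasStrictFDerivAt g L (a, 0) := by
    have s1 : HasStrictFDerivAt (fun z => z + τ z • V) (R'.restrictScalars ℝ) (G (a, 0)) := by
      rw [hG0]; exact hRd.restrictScalars ℝ
    have s2 := s1.comp (a, (0 : CN n)) G.hasStrictFDerivAt
    have s3 := (D.comp (ContinuousLinearMap.fst ℝ (CN n) (CN n))).hasStrictFDerivAt.comp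
      (a, (0 : CN n)) s2
    have s4 : HasStrictFDerivAt P ((fderiv ℂ P (a, star a)).restrictScalars ℝ)
        ((D.comp (ContinuousLinearMap.fst ℝ (CN n) (CN n))) (G (a, 0) + τ (G (a, 0)) • V)) := by
      rw [hG0, hR0]; exact hP.hasStrictFDerivAt.restrictScalars ℝ
    have s5 := s4.comp (a, (0 : CN n)) s3
    exact Complex.reCLM.hasStrictFDerivAt.comp (a, (0 : CN n)) s5
  have hg0 : ∀ᶠ α in 𝓝 a, g (α, 0) = 0 := by
    filter_upwards [hreal, hD.eventually hR] with α ⟨b, hb⟩ h2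
    show (P ((G (α, 0) + τ (G (α, 0)) • V).1, star (G (α, 0) + τ (G (α, 0)) • V).1)).re = 0
    rw [hG0]
    rw [hb] at h2 ⊢
    simp [h2]
  have hL : 0 < L (0, -Complex.I • ν) := by
    have e1 : G (0, -Complex.I • ν) = (ν, 0) - (0, star ν) := by
      simp [hGa, smul_smul]
    have e2 : fderiv ℂ P (a, star a) (G (0, -Complex.I • ν)) = 0 := by
      rw [e1, map_sub, hν, hν', sub_self]
    have e3 : fderiv ℂ τ (a, star a) (G (0, -Complex.I • ν)) = 0 := by
      have := hτ' (G (0, -Complex.I • ν))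
      simp only [R', add_apply, ContinuousLinearMap.id_apply,
        ContinuousLinearMap.smulRight_apply, map_add, map_smul, e2, hPV, zero_add,
        smul_eq_mul] at this
      simpa using this
    have e4 : R' (G (0, -Complex.I • ν)) = (ν, 0) - (0, star ν) := by
      simp only [R', add_apply, ContinuousLinearMap.id_apply,
        ContinuousLinearMap.smulRight_apply, e3, zero_smul, add_zero]
      exact e1
    show 0 < (fderiv ℂ P (a, star a) (D (R' (G (0, -Complex.I • ν))).1)).re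
    rw [e4, hDa]
    have e5 : (((ν, 0) - (0, star ν) : CN n × CN n).1, star ((ν, 0) - (0, star ν) : CN n × CN n).1)
        = V := by simp [hV]
    rw [e5, hPV]; norm_num
  obtain ⟨C, hCo, hC0, hCc, hC⟩ := exists_cone hg hg0 hL
  refine ⟨V, τ, C, hτ, hτ0, hiff, hreal, hCo, ⟨_, hC0⟩, hCc, ?_⟩
  filter_upwards [hC] with z hz hzC y hy
  rw [hy, ← hGa]
  exact hz hzC

end Crest.Agent.R264.P7
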